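import Vale.Agent.P273.H562.AsyDefs
import Vale.Agent.P273.H973.GaugeDef

/-!
# P273, crew ASY0, (F) separation: definitions

The component of a mark in the limit of a dilation, its limit leg, the point of a mark.
-/

noncomputable section

namespace Vale.Agent.P273.H469.Sep

open H95 H732 H562 H973

/-- the components of the limit: the cores, the necks at a depth -/
inductive Cmp : Type
  | core (b : Bool)
  | nk (k : Fin 3) (s : ℝ)

variable (κ : Fin 3 → Fin 3 → ℝ) (R : H95.Region) (m : ∀ k, Fin (R.n k + 1))

open Classical in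
/-- the component of a mark -/
def cmp (B : Set (W R m).Fr) (p : Co R m) (j : L) : Cmp :=
  match h : R.pl j with
  | Sum.inl k =>
    if depl R m B p h = 0 then .core false
    else if depl R m B p h = p.2.2.1 k then .core true else .nk k (depl R m B p h)
  | Sum.inr b => .core b

/-- the limit of the leg of a mark -/
def lgL (B : Set (W R m).Fr) (p : Co R m) (ξ : Fin 6 → ℝ) (j : L) (d : BDir R m) : ℝ :=
  match h : R.pl j with
  | Sum.inl k => legN κ R m ξ p.2.2.1 p.2.2.2.1 k (depl R m B p h)
      (wreg.LX R.Cm R.n m k (rkF R h)) d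
  | Sum.inr b => legC κ R m ξ p.2.2.1 p.2.2.2.1 b d

/-- the point of a mark -/
def PT (S : L → Bool) (q : Co R m) (j : L) : ℂ × ℂ :=
  (Xp S (posE R m q) j, Yp S (posE R m q) (shE R m S q) j)

variable {R m}

open Classical in
theorem cmp_neck {B : Set (W R m).Fr} {p : Co R m} {j : L} {k : Fin 3} (h : R.pl j = Sum.inl k) :
    cmp R m B p j = if depl R m B p h = 0 then .core false
    else if depl R m B p h = p.2.2.1 k then .core true else .nk k (depl R m B p h) := by
  unfold cmp
  split
  · rename_i k' h'
    have : k' = k := Sum.inl_injective (h'.symm.trans h)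
    subst this; rfl
  · rename_i s h'
    rw [h] at h'; cases h'

theorem cmp_core {B : Set (W R m).Fr} {p : Co R m} {j : L} {b : Bool} (h : R.pl j = Sum.inr b) :
    cmp R m B p j = .core b := by
  unfold cmp
  split
  · rename_i k' h'
    rw [h] at h'; cases h'
  · rename_i s h'
    have : s = b := Sum.inr_injective (h'.symm.trans h)
    subst this; rfl

variable {κ}

theorem lgL_neck {B : Set (W R m).Fr} {p : Co R m} {ξ : Fin 6 → ℝ} {j : L} {k : Fin 3}
    (h : R.pl j = Sum.inl k) (d : BDir R m) : lgL κ R m B p ξ j d =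
      legN κ R m ξ p.2.2.1 p.2.2.2.1 k (depl R m B p h) (wreg.LX R.Cm R.n m k (rkF R h)) d := by
  unfold lgL
  split
  · rename_i k' h'
    have : k' = k := Sum.inl_injective (h'.symm.trans h)
    subst this; rfl
  · rename_i s h'
    rw [h] at h'; cases h'

theorem lgL_core {B : Set (W R m).Fr} {p : Co R m} {ξ : Fin 6 → ℝ} {j : L} {b : Bool}
    (h : R.pl j = Sum.inr b) (d : BDir R m) :
    lgL κ R m B p ξ j d = legC κ R m ξ p.2.2.1 p.2.2.2.1 b d := by
  unfold lgL
  split
  · rename_i k' h'
    rw [h] at h'; cases h'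
  · rename_i s h'
    have : s = b := Sum.inr_injective (h'.symm.trans h)
    subst this; rfl

theorem PP_eq_PT (S : L → Bool) (q : Co R m) (k : Fin 7) (t : Bool) :
    PP S t (posE R m q) (shE R m S q) k = PT R m S q (k, t) := rfl

end Vale.Agent.P273.H469.Sep

end
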