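import Vale.Agent.P273.H469.Pt
import Vale.Agent.P273.H948.Surgery

/-!
P273, insertion of a mark near a mark (M2): over the open set `U` with fibre coordinate `ξ` of the
nodal surface `S` the surface `{(x, a) | ξ = t a} ⊆ U × OnePoint ℂ`, a modification of `S` with
centre `ξ = t = 0`.
-/

noncomputable section

open Set Filter Topology OnePoint

namespace Vale.Agent.P273.H469

open Vale.Agent.P273.H948

/-- the relation `ξ = s a` on the projective line -/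
def Rel2 (ξ s : ℂ) (a : OnePoint ℂ) : Prop :=
  (a ≠ ∞ → ξ = s * fv a) ∧ (a ≠ oz → ξ * iv a = s)

theorem rel2_coe {ξ s z : ℂ} (h1 : ξ = s * z) : Rel2 ξ s (z : OnePoint ℂ) := by
  refine ⟨fun _ => h1, fun h => ?_⟩
  have hz := coe_ne_oz.1 h
  rw [iv_coe, h1, mul_inv_cancel_right₀ hz]

theorem rel2_oi {ξ s c : ℂ} (h1 : ξ * c = s) : Rel2 ξ s (oi c) := by
  refine ⟨fun h => ?_, fun _ => ?_⟩
  · have hc : c ≠ 0 := by rintro rfl; exact h oi_zero
    rw [oi_of_ne hc, fv_coe, ← h1, mul_inv_cancel_right₀ hc]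
  · rw [iv_oi]; exact h1

variable {m : ℕ}

/-- data for the insertion of a mark near a mark -/
structure BubData (S : Surf m) where
  /-- the neighbourhood of the mark -/
  U : Set S.X
  /-- the fibre coordinate -/
  ξ : S.X → ℂ
  /-- the distance of the two marks -/
  t : (Fin m → ℂ) → ℂ
  co : IsCoord S.π S.hol U ξ
  an : ∀ x ∈ U, AnalyticAt ℂ t (S.π x)
  cl : IsClosed {x | x ∈ U ∧ ξ x = 0 ∧ t (S.π x) = 0}

namespace BubData

variable {S : Surf m} (D : BubData S)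

/-- the defining condition -/
def P (p : S.X × OnePoint ℂ) : Prop := p.1 ∈ D.U ∧ Rel2 (D.ξ p.1) (D.t (S.π p.1)) p.2

/-- the total space -/
abbrev Sp : Type := Subtype D.P

/-- the centre -/
def Z : Set S.X := {x | x ∈ D.U ∧ D.ξ x = 0 ∧ D.t (S.π x) = 0}

/-- the contraction -/
def ρ (y : D.Sp) : S.X := y.1.1

/-- the point of the projective line -/
def a (y : D.Sp) : OnePoint ℂ := y.1.2

/-- its value -/
def fa (y : D.Sp) : ℂ := fv (D.a y)

/-- its inverse value -/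
def ia (y : D.Sp) : ℂ := iv (D.a y)

/-- the coordinate map downstairs -/
def G (x : S.X) : (Fin m → ℂ) × ℂ := (S.π x, D.ξ x)

/-- the first coordinate map -/
def F₁ (y : D.Sp) : (Fin m → ℂ) × ℂ := (S.π (D.ρ y), D.fa y)

/-- the second coordinate map -/
def E₂ : D.Sp → Amb m := Emap (fun y => S.π (D.ρ y)) (fun y => D.ξ (D.ρ y)) D.ia

/-- the germs of holomorphic functions -/
def hol (y : D.Sp) (g : D.Sp → ℂ) : Prop :=
  (D.a y ≠ ∞ → Germ D.F₁ y g) ∧ (D.a y = ∞ → Germ D.E₂ y g)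

variable {D}

theorem mem (y : D.Sp) : D.ρ y ∈ D.U := y.2.1

theorem rel (y : D.Sp) : Rel2 (D.ξ (D.ρ y)) (D.t (S.π (D.ρ y))) (D.a y) := y.2.2

theorem cρ : Continuous D.ρ := cont_ρ

theorem ca : Continuous D.a := cont_a

theorem cπ : Continuous fun y : D.Sp => S.π (D.ρ y) := S.cont_π.comp cρ

theorem cξ (y : D.Sp) : ContinuousAt (fun y => D.ξ (D.ρ y)) y :=
  ContinuousAt.comp (f := D.ρ) (D.co.cont_ξ (mem y)) cρ.continuousAt

theorem cfa {y : D.Sp} (h : D.a y ≠ ∞) : ContinuousAt D.fa y :=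
  ContinuousAt.comp (f := D.a) (cont_fv h) ca.continuousAt

theorem cia {y : D.Sp} (h : D.a y ≠ oz) : ContinuousAt D.ia y :=
  ContinuousAt.comp (f := D.a) (cont_iv h) ca.continuousAt

theorem ev_fin {y : D.Sp} (h : D.a y ≠ ∞) : ∀ᶠ z in 𝓝 y, D.a z ≠ ∞ :=
  ca.continuousAt.eventually (isOpen_fin.mem_nhds h)

theorem ev_inv {y : D.Sp} (h : D.a y ≠ oz) : ∀ᶠ z in 𝓝 y, D.a z ≠ oz :=
  ca.continuousAt.eventually (isOpen_inv.mem_nhds h)

theorem an_t₁ (y : D.Sp) : AnalyticAt ℂ (fun p : (Fin m → ℂ) × ℂ => D.t p.1) (D.F₁ y) :=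
  AnalyticAt.comp (g := D.t) (D.an _ (mem y)) analyticAt_fst

theorem an_t₂ (y : D.Sp) : AnalyticAt ℂ (fun p : Amb m => D.t p.1) (D.E₂ y) :=
  AnalyticAt.comp (g := D.t) (D.an _ (mem y)) (an_b _)

/-- from the first to the second chart -/
theorem tr₁₂ {y : D.Sp} (h : D.a y ≠ ∞) (h0 : D.a y ≠ oz) {g : D.Sp → ℂ}
    (hg : Germ D.E₂ y g) : Germ D.F₁ y g := by
  have h1 : fv (D.a y) ≠ 0 := fv_ne_zero h h0
  refine hg.trans (φ := fun p : (Fin m → ℂ) × ℂ => (p.1, D.t p.1 * p.2, (p.2)⁻¹)) ?_ ?_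
  · exact AnalyticAt.prod analyticAt_fst (AnalyticAt.prod ((an_t₁ y).mul analyticAt_snd)
      (AnalyticAt.inv analyticAt_snd h1))
  · filter_upwards [ev_fin h] with z hz
    have h3 := (rel z).1 hz
    simp only [E₂, F₁, Emap, Function.comp_apply, fa, ia, ← h3, iv_eq_inv]

/-- from the second to the first chart -/
theorem tr₂₁ {y : D.Sp} (h : D.a y ≠ ∞) (h0 : D.a y ≠ oz) {g : D.Sp → ℂ}
    (hg : Germ D.F₁ y g) : Germ D.E₂ y g := by
  have h1 : iv (D.a y) ≠ 0 := iv_ne_zero h h0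
  refine hg.trans (φ := fun p : Amb m => (p.1, (p.2.2)⁻¹)) ?_ ?_
  · exact AnalyticAt.prod (an_b _) ((an_v _).inv h1)
  · filter_upwards [ev_inv h0] with z hz
    simp only [E₂, F₁, Emap, Function.comp_apply, fa, ia]
    rw [iv_eq_inv, inv_inv]

theorem hol_fin {y : D.Sp} (h : D.a y ≠ ∞) (g : D.Sp → ℂ) : D.hol y g ↔ Germ D.F₁ y g :=
  ⟨fun hg => hg.1 h, fun hg => ⟨fun _ => hg, fun h' => absurd h' h⟩⟩

theorem hol_inv {y : D.Sp} (h0 : D.a y ≠ oz) (g : D.Sp → ℂ) : D.hol y g ↔ Germ D.E₂ y g := by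
  by_cases h : D.a y = ∞
  · exact ⟨fun hg => hg.2 h, fun hg => ⟨fun h' => absurd h h', fun _ => hg⟩⟩
  · rw [hol_fin h]
    exact ⟨tr₂₁ h h0, tr₁₂ h h0⟩

theorem inj₁ {y z : D.Sp} (hy : D.a y ≠ ∞) (hz : D.a z ≠ ∞) (e : D.F₁ y = D.F₁ z) : y = z := by
  simp only [F₁, Prod.mk.injEq] at e
  obtain ⟨e1, e2⟩ := e
  have ea : D.a y = D.a z := by
    rw [← coe_fv hy, ← coe_fv hz]
    exact congrArg _ e2
  have eu : D.ξ (D.ρ y) = D.ξ (D.ρ z) := by
    rw [(rel y).1 hy, (rel z).1 hz, e1]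
    exact congrArg _ e2
  have ex : D.ρ y = D.ρ z := D.co.inj (mem y) (mem z) (by simp only [e1, eu])
  exact Subtype.ext (Prod.ext ex ea)

theorem inj₂ {y z : D.Sp} (hy : D.a y ≠ oz) (hz : D.a z ≠ oz) (e : D.E₂ y = D.E₂ z) : y = z := by
  simp only [E₂, Emap, Prod.mk.injEq] at e
  obtain ⟨e1, e2, e3⟩ := e
  have ea : D.a y = D.a z := by
    rw [← oi_iv hy, ← oi_iv hz]
    exact congrArg _ e3
  have ex : D.ρ y = D.ρ z := D.co.inj (mem y) (mem z) (by simp only [e1, e2])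
  exact Subtype.ext (Prod.ext ex ea)

theorem cF₁ {y : D.Sp} (h : D.a y ≠ ∞) : ContinuousAt D.F₁ y :=
  cπ.continuousAt.prodMk (cfa h)

theorem cE₂ {y : D.Sp} (h : D.a y ≠ oz) : ContinuousAt D.E₂ y :=
  cπ.continuousAt.prodMk ((cξ y).prodMk (cia h))

theorem nhds_G {x : S.X} (hx : x ∈ D.U) : map D.G (𝓝 x) = 𝓝[univ] (D.G x) := by
  rw [nhdsWithin_univ]; exact D.co.nhds x hx

theorem nhds₁ {y : D.Sp} (h : D.a y ≠ ∞) : map D.F₁ (𝓝 y) = 𝓝 (D.F₁ y) := by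
  have hx : y.1.1 ∈ D.U := mem y
  rw [← nhdsWithin_univ (D.F₁ y)]
  refine nhds_lift (E := D.G) (T := univ) (U := D.U)
    (κ := fun p => (p.1, D.t p.1 * p.2)) (σ := fun p => (p.2 : OnePoint ℂ))
    (D.co.isOpen.mem_nhds hx) (nhds_G hx) (cF₁ h) ?_ ?_ ?_ ?_ ?_ ?_ ?_
  · exact Eventually.of_forall fun _ => trivial
  · exact (AnalyticAt.prod analyticAt_fst ((an_t₁ y).mul analyticAt_snd)).continuousAt
  · have h3 := (rel y).1 h
    change (S.π (D.ρ y), D.t (S.π (D.ρ y)) * fv (D.a y)) = (S.π (D.ρ y), D.ξ (D.ρ y))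
    rw [← h3]
  · exact cont_coe.continuousAt.comp continuousAt_snd
  · exact coe_fv h
  · exact Eventually.of_forall fun _ => trivial
  · refine Eventually.of_forall fun p x' hx' e => ?_
    simp only [G, Prod.mk.injEq] at e
    obtain ⟨e1, e2⟩ := e
    have hP : D.P (x', (p.2 : OnePoint ℂ)) := by
      refine ⟨hx', rel2_coe ?_⟩
      rw [e1, e2]
    refine ⟨hP, ?_⟩
    change (S.π x', fv (p.2 : OnePoint ℂ)) = p
    rw [e1, fv_coe]

theorem nhds₂ {y : D.Sp} (h : D.a y ≠ oz) : map D.E₂ (𝓝 y) = 𝓝[Mset D.t] (D.E₂ y) := by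
  have hx : y.1.1 ∈ D.U := mem y
  refine nhds_lift (E := D.G) (T := univ) (U := D.U)
    (κ := fun p => (p.1, p.2.1)) (σ := fun p => oi p.2.2)
    (D.co.isOpen.mem_nhds hx) (nhds_G hx) (cE₂ h) ?_ ?_ ?_ ?_ ?_ ?_ ?_
  · filter_upwards [ev_inv h] with z hz
    exact (rel z).2 hz
  · exact (AnalyticAt.prod (an_b _) (an_u _)).continuousAt
  · rfl
  · exact cont_oi.continuousAt.comp (an_v _).continuousAt
  · exact oi_iv h
  · exact Eventually.of_forall fun _ => trivial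
  · filter_upwards [self_mem_nhdsWithin] with p hp2 x' hx' e
    have hp2' : p.2.1 * p.2.2 = D.t p.1 := hp2
    simp only [G, Prod.mk.injEq] at e
    obtain ⟨e1, e2⟩ := e
    have hP : D.P (x', oi p.2.2) := by
      refine ⟨hx', rel2_oi ?_⟩
      rw [e1, e2, hp2']
    refine ⟨hP, ?_⟩
    change (S.π x', D.ξ x', iv (oi p.2.2)) = p
    rw [e1, e2, iv_oi]

variable (D) in
/-- the coordinate `a` -/
theorem coord₁ : IsCoord (fun y => S.π (D.ρ y)) D.hol {y | D.a y ≠ ∞} D.fa where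
  isOpen := isOpen_fin.preimage ca
  inj := fun _ hy _ hz e => inj₁ hy hz e
  nhds := fun _ hy => nhds₁ hy
  hol := fun _ hy g => hol_fin hy g

variable (D) in
/-- the chart `ξ a⁻¹ = t` -/
theorem model₂ : IsModel (fun y => S.π (D.ρ y)) D.hol {y | D.a y ≠ oz} (fun y => D.ξ (D.ρ y)) D.ia
    D.t where
  isOpen := isOpen_inv.preimage ca
  inj := fun _ hy _ hz e => inj₂ hy hz e
  eqn := fun y hy => (rel y).2 hy
  an := fun y _ => D.an _ (mem y)
  nhds := fun _ hy => nhds₂ hy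
  hol := fun _ hy g => hol_inv hy g

variable (D) in
/-- the new surface -/
def bub : Surf m where
  X := D.Sp
  top := inferInstance
  t2 := inferInstance
  π y := S.π (D.ρ y)
  hol := D.hol
  model y := by
    by_cases h : D.a y = ∞
    · exact ⟨_, _, _, _, by rw [Set.mem_ofPred_eq, h]; exact (coe_ne_infty 0).symm, D.model₂⟩
    · obtain ⟨V, u, v, h1, -, h2, -⟩ := D.coord₁.model (y := y) h
      exact ⟨V, u, v, _, h1, h2⟩

/-- pull back of holomorphic functions -/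
theorem pull (y : D.Sp) (g : S.X → ℂ) (hg : S.hol (D.ρ y) g) : D.hol y (g ∘ D.ρ) := by
  have h1 : Germ D.G (D.ρ y) g := (D.co.hol _ (mem y) g).1 hg
  have h2 : Germ (D.G ∘ D.ρ) y (g ∘ D.ρ) := h1.pull cρ.continuousAt
  by_cases h : D.a y = ∞
  · have h0 : D.a y ≠ oz := by rw [h]; exact (coe_ne_infty 0).symm
    rw [hol_inv h0]
    exact h2.trans (φ := fun p : Amb m => (p.1, p.2.1)) (AnalyticAt.prod (an_b _) (an_u _))
      (Eventually.of_forall fun z => rfl)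
  · rw [hol_fin h]
    refine h2.trans (φ := fun p : (Fin m → ℂ) × ℂ => (p.1, D.t p.1 * p.2))
      (AnalyticAt.prod analyticAt_fst ((an_t₁ y).mul analyticAt_snd)) ?_
    filter_upwards [ev_fin h] with z hz
    have h4 := (rel z).1 hz
    simp only [F₁, G, Function.comp_apply, fa, ← h4]

/-- the fibre over a point of the centre is the whole projective line -/
theorem mem_of_Z {x : S.X} (hx : x ∈ D.Z) (a : OnePoint ℂ) : D.P (x, a) := by
  obtain ⟨h0, h1, h2⟩ := hx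
  refine ⟨h0, fun _ => ?_, fun _ => ?_⟩
  · change D.ξ x = D.t (S.π x) * fv a
    rw [h1, h2]; simp
  · change D.ξ x * iv a = D.t (S.π x)
    rw [h1, h2]; simp

/-- off the centre the fibre is at most one point -/
theorem inj_ρ {y z : D.Sp} (hy : D.ρ y ∉ D.Z) (e : D.ρ y = D.ρ z) : y = z := by
  have key : ∀ y z : D.Sp, D.ρ y = D.ρ z → D.ρ y ∉ D.Z → D.a y ≠ ∞ → D.a y = D.a z := by
    intro y z e hy ha
    have h1 := (rel y).1 ha
    by_cases hz : D.a z = ∞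
    · exfalso
      have hz0 : D.a z ≠ oz := by rw [hz]; exact (coe_ne_infty 0).symm
      have h3 := (rel z).2 hz0
      rw [hz, iv_infty, mul_zero, ← e] at h3
      rw [← h3, zero_mul] at h1
      exact hy ⟨mem y, h1, h3.symm⟩
    · have h3 := (rel z).1 hz
      rw [← e] at h3
      by_contra hne
      have hne' : fv (D.a y) ≠ fv (D.a z) := by
        intro e'
        apply hne
        rw [← coe_fv ha, ← coe_fv hz, e']
      have hs0 : D.t (S.π (D.ρ y)) = 0 := by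
        by_contra hs
        exact hne' (mul_left_cancel₀ hs (h1.symm.trans h3))
      rw [hs0, zero_mul] at h1
      exact hy ⟨mem y, h1, hs0⟩
  have ea : D.a y = D.a z := by
    by_cases ha : D.a y = ∞
    · by_cases hz : D.a z = ∞
      · rw [ha, hz]
      · exact (key z y e.symm (by rw [← e]; exact hy) hz).symm
    · exact key y z e hy ha
  exact Subtype.ext (Prod.ext e ea)

theorem surj (x : S.X) (hx : x ∈ D.U) : ∃ y : D.Sp, D.ρ y = x := by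
  by_cases h0 : D.t (S.π x) = 0
  · refine ⟨⟨(x, oi 0), hx, rel2_oi ?_⟩, rfl⟩
    change D.ξ x * 0 = D.t (S.π x)
    rw [h0, mul_zero]
  · refine ⟨⟨(x, ((D.ξ x / D.t (S.π x) : ℂ) : OnePoint ℂ)), hx, rel2_coe ?_⟩, rfl⟩
    change D.ξ x = D.t (S.π x) * (D.ξ x / D.t (S.π x))
    rw [mul_div_cancel₀ _ h0]

/-- off the centre one of the two values of `a` is a holomorphic function downstairs -/
theorem exists_k {y : D.Sp} (hy : D.ρ y ∉ D.Z) :
    (D.a y ≠ ∞ ∧ ∃ k : (Fin m → ℂ) × ℂ → ℂ, AnalyticAt ℂ k (D.G (D.ρ y)) ∧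
      (∀ᶠ x in 𝓝 (D.ρ y), D.P (x, (k (D.G x) : OnePoint ℂ))) ∧
      ∀ᶠ z in 𝓝 y, D.fa z = k (D.G (D.ρ z))) ∨
    (D.a y ≠ oz ∧ D.a y = ∞ ∧ ∃ k : (Fin m → ℂ) × ℂ → ℂ, AnalyticAt ℂ k (D.G (D.ρ y)) ∧
      (∀ᶠ x in 𝓝 (D.ρ y), D.P (x, oi (k (D.G x)))) ∧
      ∀ᶠ z in 𝓝 y, D.ia z = k (D.G (D.ρ z))) := by
  have hU := D.co.isOpen.mem_nhds (mem y)
  have a₀ : AnalyticAt ℂ (fun p : (Fin m → ℂ) × ℂ => D.t p.1) (D.G (D.ρ y)) :=
    AnalyticAt.comp (g := D.t) (D.an _ (mem y)) analyticAt_fst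
  have c₀ : ContinuousAt (fun x => D.t (S.π x)) (D.ρ y) :=
    ContinuousAt.comp (f := S.π) (D.an _ (mem y)).continuousAt S.cont_π.continuousAt
  have cξ' := D.co.cont_ξ (mem y)
  by_cases ha : D.a y = ∞
  · right
    have ha0 : D.a y ≠ oz := by rw [ha]; exact (coe_ne_infty 0).symm
    refine ⟨ha0, ha, ?_⟩
    have h1 := (rel y).2 ha0
    rw [ha, iv_infty, mul_zero] at h1
    have hu : D.ξ (D.ρ y) ≠ 0 := fun h => hy ⟨mem y, h, h1.symm⟩
    refine ⟨fun p => D.t p.1 / p.2, a₀.div analyticAt_snd hu, ?_, ?_⟩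
    · filter_upwards [hU, cξ'.eventually_ne hu] with x hx hx1
      refine ⟨hx, rel2_oi ?_⟩
      change D.ξ x * (D.t (S.π x) / D.ξ x) = D.t (S.π x)
      rw [mul_div_cancel₀ _ hx1]
    · filter_upwards [ev_inv ha0, cρ.continuousAt.eventually (cξ'.eventually_ne hu)] with z hz hz1
      have h3 := (rel z).2 hz
      change iv (D.a z) = D.t (S.π (D.ρ z)) / D.ξ (D.ρ z)
      rw [← h3, mul_div_cancel_left₀ _ hz1]
  · left
    refine ⟨ha, ?_⟩
    have h1 := (rel y).1 ha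
    have ht : D.t (S.π (D.ρ y)) ≠ 0 := by
      intro ht
      rw [ht, zero_mul] at h1
      exact hy ⟨mem y, h1, ht⟩
    refine ⟨fun p => p.2 / D.t p.1, AnalyticAt.div analyticAt_snd a₀ ht, ?_, ?_⟩
    · filter_upwards [hU, c₀.eventually_ne ht] with x hx hx1
      refine ⟨hx, rel2_coe ?_⟩
      change D.ξ x = D.t (S.π x) * (D.ξ x / D.t (S.π x))
      rw [mul_div_cancel₀ _ hx1]
    · filter_upwards [ev_fin ha, cρ.continuousAt.eventually (c₀.eventually_ne ht)] with z hz hz1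
      have h3 := (rel z).1 hz
      change fv (D.a z) = D.ξ (D.ρ z) / D.t (S.π (D.ρ z))
      rw [h3, mul_div_cancel_left₀ _ hz1]

theorem nhds_ρ (y : D.Sp) (hy : D.ρ y ∉ D.Z) : 𝓝 (D.ρ y) ≤ map D.ρ (𝓝 y) := by
  rcases exists_k hy with ⟨ha, k, hk, h1, h2⟩ | ⟨ha, -, k, hk, h1, h2⟩
  · refine open_of_section (α := fun x => (k (D.G x) : OnePoint ℂ)) ?_ ?_ h1
    · exact cont_coe.continuousAt.comp
        (ContinuousAt.comp (f := D.G) hk.continuousAt (D.co.cont (mem y)))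
    · have := h2.self_of_nhds
      change ((k (D.G (D.ρ y)) : ℂ) : OnePoint ℂ) = D.a y
      rw [← this]; exact coe_fv ha
  · refine open_of_section (α := fun x => oi (k (D.G x))) ?_ ?_ h1
    · exact cont_oi.continuousAt.comp
        (ContinuousAt.comp (f := D.G) hk.continuousAt (D.co.cont (mem y)))
    · have := h2.self_of_nhds
      change oi (k (D.G (D.ρ y))) = D.a y
      rw [← this]; exact oi_iv ha

theorem hhol_ρ (y : D.Sp) (hy : D.ρ y ∉ D.Z) (g : D.Sp → ℂ) (hg : D.hol y g) :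
    ∃ g', S.hol (D.ρ y) g' ∧ g =ᶠ[𝓝 y] g' ∘ D.ρ := by
  rcases exists_k hy with ⟨ha, k, hk, h1, h2⟩ | ⟨ha, -, k, hk, h1, h2⟩
  · obtain ⟨h, hh, e⟩ := (hol_fin ha g).1 hg
    let φ : (Fin m → ℂ) × ℂ → (Fin m → ℂ) × ℂ := fun p => (p.1, k p)
    have hφ : AnalyticAt ℂ φ (D.G (D.ρ y)) := AnalyticAt.prod analyticAt_fst hk
    have e0 : ∀ᶠ z in 𝓝 y, D.F₁ z = φ (D.G (D.ρ z)) := by
      filter_upwards [h2] with z hz
      change (S.π (D.ρ z), D.fa z) = (S.π (D.ρ z), k _)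
      rw [hz]
    refine ⟨(h ∘ φ) ∘ D.G, ?_, ?_⟩
    · refine (D.co.hol _ (mem y) _).2 ⟨h ∘ φ, ?_, EventuallyEq.rfl⟩
      rw [e0.self_of_nhds] at hh
      exact hh.comp hφ
    · filter_upwards [e, e0] with z h3 h4
      rw [h3, Function.comp_apply, h4]
      rfl
  · obtain ⟨h, hh, e⟩ := (hol_inv ha g).1 hg
    let φ : (Fin m → ℂ) × ℂ → Amb m := fun p => (p.1, p.2, k p)
    have hφ : AnalyticAt ℂ φ (D.G (D.ρ y)) :=
      AnalyticAt.prod analyticAt_fst (AnalyticAt.prod analyticAt_snd hk)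
    have e0 : ∀ᶠ z in 𝓝 y, D.E₂ z = φ (D.G (D.ρ z)) := by
      filter_upwards [h2] with z hz
      change (S.π (D.ρ z), D.ξ (D.ρ z), D.ia z) = (S.π (D.ρ z), D.ξ (D.ρ z), k _)
      rw [hz]
    refine ⟨(h ∘ φ) ∘ D.G, ?_, ?_⟩
    · refine (D.co.hol _ (mem y) _).2 ⟨h ∘ φ, ?_, EventuallyEq.rfl⟩
      rw [e0.self_of_nhds] at hh
      exact hh.comp hφ
    · filter_upwards [e, e0] with z h3 h4
      rw [h3, Function.comp_apply, h4]
      rfl

/-- the defining condition is closed over `U` -/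
theorem closed_P {𝒱 : Ultrafilter D.Sp} {x : S.X} (hx : x ∈ D.U) {a₀ : OnePoint ℂ}
    (h1 : map D.ρ 𝒱 ≤ 𝓝 x) (h2 : map D.a 𝒱 ≤ 𝓝 a₀) : D.P (x, a₀) := by
  have t1 : Tendsto D.ρ (𝒱 : Filter D.Sp) (𝓝 x) := h1
  have t2 : Tendsto D.a (𝒱 : Filter D.Sp) (𝓝 a₀) := h2
  have tb : Tendsto (fun y => S.π (D.ρ y)) (𝒱 : Filter D.Sp) (𝓝 (S.π x)) :=
    S.cont_π.continuousAt.tendsto.comp t1
  have tu : Tendsto (fun y => D.ξ (D.ρ y)) (𝒱 : Filter D.Sp) (𝓝 (D.ξ x)) :=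
    (D.co.cont_ξ hx).tendsto.comp t1
  have t₀ : Tendsto (fun y => D.t (S.π (D.ρ y))) (𝒱 : Filter D.Sp) (𝓝 (D.t (S.π x))) :=
    (D.an _ hx).continuousAt.tendsto.comp tb
  refine ⟨hx, fun ha => ?_, fun ha => ?_⟩
  · have tf : Tendsto (fun y => fv (D.a y)) (𝒱 : Filter D.Sp) (𝓝 (fv a₀)) :=
      (cont_fv ha).tendsto.comp t2
    have ev : ∀ᶠ y in (𝒱 : Filter D.Sp), D.a y ≠ ∞ := t2.eventually (isOpen_fin.mem_nhds ha)
    refine tendsto_nhds_unique tu ((t₀.mul tf).congr' ?_)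
    filter_upwards [ev] with y hy
    exact ((rel y).1 hy).symm
  · have tf : Tendsto (fun y => iv (D.a y)) (𝒱 : Filter D.Sp) (𝓝 (iv a₀)) :=
      (cont_iv ha).tendsto.comp t2
    have ev : ∀ᶠ y in (𝒱 : Filter D.Sp), D.a y ≠ oz := t2.eventually (isOpen_inv.mem_nhds ha)
    refine tendsto_nhds_unique ((tu.mul tf).congr' ?_) t₀
    filter_upwards [ev] with y hy
    exact (rel y).2 hy

theorem proper_ρ (𝒱 : Ultrafilter D.Sp) (x : S.X) (hx : x ∈ D.U) (h : map D.ρ 𝒱 ≤ 𝓝 x) :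
    ∃ y, (𝒱 : Filter D.Sp) ≤ 𝓝 y := by
  obtain ⟨a₀, -, ha⟩ := isCompact_univ.ultrafilter_le_nhds (𝒱.map D.a) (by simp)
  have ha' : map D.a 𝒱 ≤ 𝓝 a₀ := ha
  have hP := closed_P hx h ha'
  refine ⟨⟨(x, a₀), hP⟩, ?_⟩
  have e : 𝓝 (⟨(x, a₀), hP⟩ : D.Sp) = comap Subtype.val (𝓝 (x, a₀)) :=
    Topology.IsInducing.subtypeVal.nhds_eq_comap _
  rw [e, nhds_prod_eq, ← Filter.map_le_iff_le_comap]
  have t1 : Tendsto D.ρ (𝒱 : Filter D.Sp) (𝓝 x) := h
  have t2 : Tendsto D.a (𝒱 : Filter D.Sp) (𝓝 a₀) := ha'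
  exact t1.prodMk t2

variable (D) in
/-- **M2** -/
def modif : Modif S D.bub where
  Z := D.Z
  N := D.U
  ρ := D.ρ
  closed := D.cl
  opn := D.co.isOpen
  sub := fun _ hx => hx.1
  cont := cρ
  maps := mem
  hπ := fun _ => rfl
  hpull := pull
  proper := proper_ρ
  inj := fun _ hy _ _ e => inj_ρ hy e
  surj := fun x hx _ => surj x hx
  nhds := nhds_ρ
  hhol := hhol_ρ

end BubData

end Vale.Agent.P273.H469
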