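import Vale.Agent.P273.H469.Node
import Vale.Agent.P273.H469.Bub
import Vale.Agent.P273.H948.PFam

/-!
P273, insertion of marks: connectedness of the fibres over the centre, lifts of sections, smooth
points of the new surfaces, closedness of the centre.
-/

noncomputable section

open Set Filter Topology OnePoint

namespace Vale.Agent.P273.H469

open Vale.Agent.P273.H948

variable {m : ℕ}

/-- a germ evaluated along a section is analytic -/
theorem Germ.sec {X F : Type} [TopologicalSpace X] [NormedAddCommGroup F] [NormedSpace ℂ F]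
    {E : X → F} {σ : (Fin m → ℂ) → X} {b : Fin m → ℂ} {g : X → ℂ} (h : Germ E (σ b) g)
    (hσ : ContinuousAt σ b) (hE : AnalyticAt ℂ (fun b' => E (σ b')) b) :
    AnalyticAt ℂ (fun b' => g (σ b')) b := by
  obtain ⟨k, hk, hk'⟩ := h
  have h1 : AnalyticAt ℂ (fun b' => k (E (σ b'))) b := AnalyticAt.comp (g := k) hk hE
  refine h1.congr ?_
  filter_upwards [hσ.eventually hk'] with b' hb'
  exact hb'.symm

theorem isConnected_line {X : Type} [TopologicalSpace X] {P : X × OnePoint ℂ → Prop} {x : X}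
    (h : ∀ w : OnePoint ℂ, P (x, w)) :
    IsConnected ((fun y : Subtype P => y.1.1) ⁻¹' {x}) := by
  have e : (fun y : Subtype P => y.1.1) ⁻¹' {x} =
      range fun w : OnePoint ℂ => (⟨(x, w), h w⟩ : Subtype P) := by
    ext y
    constructor
    · intro hy
      have hy' : y.1.1 = x := hy
      refine ⟨y.1.2, Subtype.ext (Prod.ext hy'.symm rfl)⟩
    · rintro ⟨w, rfl⟩
      rfl
  rw [e]
  refine isConnected_range ?_
  exact Continuous.subtype_mk (continuous_const.prodMk continuous_id) _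

/-- closedness of the centre of M3 -/
theorem closed_node {S : Surf m} {U : Set S.X} {u v : S.X → ℂ} {t τ₀ τ₁ : (Fin m → ℂ) → ℂ}
    (mod : IsModel S.π S.hol U u v t) (c₀ : ∀ x, ContinuousAt τ₀ (S.π x))
    (c₁ : ∀ x, ContinuousAt τ₁ (S.π x))
    (hex : ∀ x, τ₀ (S.π x) = 0 → τ₁ (S.π x) = 0 → ∃ x' ∈ U, Emap S.π u v x' = (S.π x, 0, 0)) :
    IsClosed {x | x ∈ U ∧ u x = 0 ∧ v x = 0 ∧ τ₀ (S.π x) = 0 ∧ τ₁ (S.π x) = 0} := by
  rw [isClosed_iff_ultrafilter]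
  intro y 𝒰 h𝒰 hZ
  have tπ : Tendsto S.π (𝒰 : Filter S.X) (𝓝 (S.π y)) := S.cont_π.continuousAt.tendsto.comp h𝒰
  have h0 : τ₀ (S.π y) = 0 := by
    have h1 : Tendsto (fun x => τ₀ (S.π x)) (𝒰 : Filter S.X) (𝓝 (τ₀ (S.π y))) :=
      (c₀ y).tendsto.comp tπ
    refine tendsto_nhds_unique h1 (tendsto_const_nhds.congr' ?_)
    filter_upwards [hZ] with x hx
    exact hx.2.2.2.1.symm
  have h1 : τ₁ (S.π y) = 0 := by
    have h1 : Tendsto (fun x => τ₁ (S.π x)) (𝒰 : Filter S.X) (𝓝 (τ₁ (S.π y))) :=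
      (c₁ y).tendsto.comp tπ
    refine tendsto_nhds_unique h1 (tendsto_const_nhds.congr' ?_)
    filter_upwards [hZ] with x hx
    exact hx.2.2.2.2.symm
  obtain ⟨x', hx', e⟩ := hex y h0 h1
  have h2 : map (Emap S.π u v) 𝒰 ≤ map (Emap S.π u v) (𝓝 x') := by
    rw [mod.nhds x' hx', e, nhdsWithin, le_inf_iff]
    constructor
    · have h3 : Tendsto (fun x => ((S.π x, 0, 0) : Amb m)) (𝒰 : Filter S.X) (𝓝 (S.π y, 0, 0)) :=
        tπ.prodMk_nhds tendsto_const_nhds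
      refine h3.congr' ?_
      filter_upwards [hZ] with x hx
      simp only [Emap, hx.2.1, hx.2.2.1]
    · rw [le_principal_iff, Filter.mem_map]
      exact mem_of_superset hZ fun x hx => mod.eqn x hx.1
  have h3 : (𝒰 : Filter S.X) ≤ 𝓝 x' :=
    (Filter.map_le_map_iff_of_injOn (mem_of_superset hZ fun x hx => hx.1)
      (mod.isOpen.mem_nhds hx') mod.inj).1 h2
  have h4 : y = x' := by
    have := 𝒰.neBot
    exact tendsto_nhds_unique (f := id) (l := (𝒰 : Filter S.X)) h𝒰 h3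
  rw [h4]
  simp only [Emap, Prod.mk.injEq] at e
  refine ⟨hx', e.2.1, e.2.2, ?_, ?_⟩
  · rw [← h4]; exact h0
  · rw [← h4]; exact h1

/-- the node persists over the zero set of `t` -/
theorem node_near {S : Surf m} {U : Set S.X} {u v : S.X → ℂ} {t : (Fin m → ℂ) → ℂ}
    (mod : IsModel S.π S.hol U u v t) {x₀ : S.X} (hx : x₀ ∈ U) (hu : u x₀ = 0) (hv : v x₀ = 0) :
    ∀ᶠ b in 𝓝 (S.π x₀), t b = 0 → ∃ x' ∈ U, Emap S.π u v x' = (b, 0, 0) := by
  have h1 : Emap S.π u v '' U ∈ 𝓝[Mset t] (Emap S.π u v x₀) := by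
    rw [← mod.nhds x₀ hx]; exact Filter.image_mem_map (mod.isOpen.mem_nhds hx)
  have e : Emap S.π u v x₀ = (S.π x₀, 0, 0) := by simp only [Emap, hu, hv]
  rw [e] at h1
  obtain ⟨W, hW, hWs⟩ := mem_nhdsWithin_iff_exists_mem_nhds_inter.1 h1
  have h2 : ContinuousAt (fun b : Fin m → ℂ => ((b, 0, 0) : Amb m)) (S.π x₀) :=
    continuousAt_id.prodMk continuousAt_const
  filter_upwards [h2 hW] with b hb ht
  obtain ⟨x', hx', e'⟩ := hWs ⟨hb, by change (0 : ℂ) * 0 = t b; rw [ht, mul_zero]⟩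
  exact ⟨x', hx', e'⟩

/-- closedness of the centre of M2 -/
theorem closed_bub {S : Surf m} {U : Set S.X} {ξ : S.X → ℂ} {t : (Fin m → ℂ) → ℂ}
    (co : IsCoord S.π S.hol U ξ) (ct : ∀ x, ContinuousAt t (S.π x))
    (hex : ∀ x, t (S.π x) = 0 → ∃ x' ∈ U, S.π x' = S.π x ∧ ξ x' = 0) :
    IsClosed {x | x ∈ U ∧ ξ x = 0 ∧ t (S.π x) = 0} := by
  rw [isClosed_iff_ultrafilter]
  intro y 𝒰 h𝒰 hZ
  have tπ : Tendsto S.π (𝒰 : Filter S.X) (𝓝 (S.π y)) := S.cont_π.continuousAt.tendsto.comp h𝒰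
  have h0 : t (S.π y) = 0 := by
    have h1 : Tendsto (fun x => t (S.π x)) (𝒰 : Filter S.X) (𝓝 (t (S.π y))) :=
      (ct y).tendsto.comp tπ
    refine tendsto_nhds_unique h1 (tendsto_const_nhds.congr' ?_)
    filter_upwards [hZ] with x hx
    exact hx.2.2.symm
  obtain ⟨x', hx', e1, e2⟩ := hex y h0
  have h2 : map (fun x => (S.π x, ξ x)) 𝒰 ≤ map (fun x => (S.π x, ξ x)) (𝓝 x') := by
    rw [co.nhds x' hx', e1, e2]
    have h3 : Tendsto (fun x => ((S.π x, 0) : (Fin m → ℂ) × ℂ)) (𝒰 : Filter S.X)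
        (𝓝 (S.π y, 0)) := tπ.prodMk_nhds tendsto_const_nhds
    refine h3.congr' ?_
    filter_upwards [hZ] with x hx
    rw [hx.2.1]
  have h3 : (𝒰 : Filter S.X) ≤ 𝓝 x' :=
    (Filter.map_le_map_iff_of_injOn (mem_of_superset hZ fun x hx => hx.1)
      (co.isOpen.mem_nhds hx') co.inj).1 h2
  have h4 : y = x' := by
    have := 𝒰.neBot
    exact tendsto_nhds_unique (f := id) (l := (𝒰 : Filter S.X)) h𝒰 h3
  rw [h4]
  exact ⟨hx', e2, by rw [← h4]; exact h0⟩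

namespace NodeData

variable {S : Surf m} {D : NodeData S}

theorem fib : D.modif.Fib := fun _ hx => isConnected_line (mem_of_Z hx)

/-- lift of a section with a finite value of `a` -/
theorem sec {B : Set (Fin m → ℂ)} (hB : IsOpen B) (hne : B.Nonempty)
    {σ : (Fin m → ℂ) → S.X} (hσ : IsSec S B σ) (hU : ∀ b ∈ B, σ b ∈ D.U)
    {μ : (Fin m → ℂ) → ℂ} (hμ : ∀ b ∈ B, AnalyticAt ℂ μ b)
    (h1 : ∀ b ∈ B, D.u (σ b) = D.τ₀ b * μ b) (h2 : ∀ b ∈ B, μ b * D.v (σ b) = D.τ₁ b) :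
    ∃ σ' : (Fin m → ℂ) → D.node.X, IsSec D.node B σ' ∧
      ∀ b ∈ B, D.ρ (σ' b) = σ b ∧ D.a (σ' b) = (μ b : OnePoint ℂ) := by
  classical
  have hP : ∀ b ∈ B, D.P (σ b, (μ b : OnePoint ℂ)) := by
    intro b hb
    refine ⟨hU b hb, rel3_coe ?_ ?_⟩
    · change D.u (σ b) = D.τ₀ (S.π (σ b)) * μ b
      rw [(hσ b hb).1]; exact h1 b hb
    · change μ b * D.v (σ b) = D.τ₁ (S.π (σ b))
      rw [(hσ b hb).1]; exact h2 b hb
  obtain ⟨b₀, hb₀⟩ := hne
  let σ' : (Fin m → ℂ) → D.Sp := fun b =>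
    if h : D.P (σ b, (μ b : OnePoint ℂ)) then ⟨_, h⟩ else ⟨_, hP b₀ hb₀⟩
  have e : ∀ b ∈ B, (σ' b).1 = (σ b, (μ b : OnePoint ℂ)) := by
    intro b hb
    have : σ' b = ⟨_, hP b hb⟩ := dif_pos (hP b hb)
    rw [this]
  have eρ : ∀ b ∈ B, D.ρ (σ' b) = σ b := fun b hb => congrArg Prod.fst (e b hb)
  have ea : ∀ b ∈ B, D.a (σ' b) = (μ b : OnePoint ℂ) := fun b hb => congrArg Prod.snd (e b hb)
  refine ⟨σ', ?_, fun b hb => ⟨eρ b hb, ea b hb⟩⟩
  intro b hb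
  have hc : ContinuousAt σ' b := by
    refine Topology.IsInducing.subtypeVal.continuousAt_iff.2 ?_
    have h3 : ContinuousAt (fun b => (σ b, (μ b : OnePoint ℂ))) b :=
      (hσ b hb).2.1.prodMk (cont_coe.continuousAt.comp (hμ b hb).continuousAt)
    refine h3.congr ?_
    filter_upwards [hB.mem_nhds hb] with b' hb'
    exact (e b' hb').symm
  refine ⟨?_, hc, ?_⟩
  · change S.π (D.ρ (σ' b)) = b
    rw [eρ b hb]; exact (hσ b hb).1
  · intro f hf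
    have ha : D.a (σ' b) ≠ ∞ := by rw [ea b hb]; exact coe_ne_infty _
    have hf' : Germ D.E₁ (σ' b) f := (hol_fin ha f).1 hf
    refine hf'.sec hc ?_
    have hv : AnalyticAt ℂ (fun b' => D.v (σ b')) b :=
      (hσ b hb).2.2 _ (D.mod.hol_v (hU b hb))
    have h4 : AnalyticAt ℂ (fun b' : Fin m → ℂ => ((b', μ b', D.v (σ b')) : Amb m)) b :=
      AnalyticAt.prod analyticAt_id (AnalyticAt.prod (hμ b hb) hv)
    refine h4.congr ?_
    filter_upwards [hB.mem_nhds hb] with b' hb'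
    change (b', μ b', D.v (σ b')) = (S.π (D.ρ (σ' b')), fv (D.a (σ' b')), D.v (D.ρ (σ' b')))
    rw [eρ b' hb', ea b' hb', fv_coe, (hσ b' hb').1]

/-- lift of a section with a given inverse value of `a` -/
theorem sec_inv {B : Set (Fin m → ℂ)} (hB : IsOpen B) (hne : B.Nonempty)
    {σ : (Fin m → ℂ) → S.X} (hσ : IsSec S B σ) (hU : ∀ b ∈ B, σ b ∈ D.U)
    {γ : (Fin m → ℂ) → ℂ} (hγ : ∀ b ∈ B, AnalyticAt ℂ γ b)
    (h1 : ∀ b ∈ B, D.u (σ b) * γ b = D.τ₀ b) (h2 : ∀ b ∈ B, D.v (σ b) = D.τ₁ b * γ b) :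
    ∃ σ' : (Fin m → ℂ) → D.node.X, IsSec D.node B σ' ∧
      ∀ b ∈ B, D.ρ (σ' b) = σ b ∧ D.a (σ' b) = oi (γ b) := by
  classical
  have hP : ∀ b ∈ B, D.P (σ b, oi (γ b)) := by
    intro b hb
    refine ⟨hU b hb, rel3_oi ?_ ?_⟩
    · change D.u (σ b) * γ b = D.τ₀ (S.π (σ b))
      rw [(hσ b hb).1]; exact h1 b hb
    · change D.v (σ b) = D.τ₁ (S.π (σ b)) * γ b
      rw [(hσ b hb).1]; exact h2 b hb
  obtain ⟨b₀, hb₀⟩ := hne
  let σ' : (Fin m → ℂ) → D.Sp := fun b =>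
    if h : D.P (σ b, oi (γ b)) then ⟨_, h⟩ else ⟨_, hP b₀ hb₀⟩
  have e : ∀ b ∈ B, (σ' b).1 = (σ b, oi (γ b)) := by
    intro b hb
    have : σ' b = ⟨_, hP b hb⟩ := dif_pos (hP b hb)
    rw [this]
  have eρ : ∀ b ∈ B, D.ρ (σ' b) = σ b := fun b hb => congrArg Prod.fst (e b hb)
  have ea : ∀ b ∈ B, D.a (σ' b) = oi (γ b) := fun b hb => congrArg Prod.snd (e b hb)
  refine ⟨σ', ?_, fun b hb => ⟨eρ b hb, ea b hb⟩⟩
  intro b hb
  have hc : ContinuousAt σ' b := by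
    refine Topology.IsInducing.subtypeVal.continuousAt_iff.2 ?_
    have h3 : ContinuousAt (fun b => (σ b, oi (γ b))) b :=
      (hσ b hb).2.1.prodMk (cont_oi.continuousAt.comp (hγ b hb).continuousAt)
    refine h3.congr ?_
    filter_upwards [hB.mem_nhds hb] with b' hb'
    exact (e b' hb').symm
  refine ⟨?_, hc, ?_⟩
  · change S.π (D.ρ (σ' b)) = b
    rw [eρ b hb]; exact (hσ b hb).1
  · intro f hf
    have ha : D.a (σ' b) ≠ oz := by rw [ea b hb]; exact oi_ne_oz _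
    have hf' : Germ D.E₂ (σ' b) f := (hol_inv ha f).1 hf
    refine hf'.sec hc ?_
    have hu : AnalyticAt ℂ (fun b' => D.u (σ b')) b :=
      (hσ b hb).2.2 _ (D.mod.hol_u (hU b hb))
    have h4 : AnalyticAt ℂ (fun b' : Fin m → ℂ => ((b', D.u (σ b'), γ b') : Amb m)) b :=
      AnalyticAt.prod analyticAt_id (AnalyticAt.prod hu (hγ b hb))
    refine h4.congr ?_
    filter_upwards [hB.mem_nhds hb] with b' hb'
    change (b', D.u (σ b'), γ b') = (S.π (D.ρ (σ' b')), D.u (D.ρ (σ' b')), iv (D.a (σ' b')))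
    rw [eρ b' hb', ea b' hb', iv_oi, (hσ b' hb').1]

theorem smooth₁ {y : D.node.X} (ha : D.a y ≠ ∞) (h : D.fa y ≠ 0 ∨ D.v (D.ρ y) ≠ 0) :
    D.node.SmoothAt y := ⟨_, _, _, _, ha, D.model₁, h⟩

theorem smooth₂ {y : D.node.X} (ha : D.a y ≠ oz) (h : D.u (D.ρ y) ≠ 0 ∨ D.ia y ≠ 0) :
    D.node.SmoothAt y := ⟨_, _, _, _, ha, D.model₂, h⟩

/-- the points with `a ≠ 0, ∞` are smooth and `a` is a coordinate there -/
theorem coord : IsCoord D.node.π D.node.hol {y | D.a y ≠ ∞ ∧ D.fa y ≠ 0} D.fa :=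
  coord_u D.model₁

/-- the coordinate `a - 1` at the new mark -/
theorem coord_one :
    IsCoord D.node.π D.node.hol {y | D.a y ≠ ∞ ∧ D.fa y ≠ 0} fun y => D.fa y - 1 :=
  (coord (D := D)).shift (f := fun _ => 1) fun _ _ => analyticAt_const

end NodeData

namespace BubData

variable {S : Surf m} {D : BubData S}

theorem fib : D.modif.Fib := fun _ hx => isConnected_line (mem_of_Z hx)

/-- lift of a section with a finite value of `a` -/
theorem sec {B : Set (Fin m → ℂ)} (hB : IsOpen B) (hne : B.Nonempty)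
    {σ : (Fin m → ℂ) → S.X} (hσ : IsSec S B σ) (hU : ∀ b ∈ B, σ b ∈ D.U)
    {μ : (Fin m → ℂ) → ℂ} (hμ : ∀ b ∈ B, AnalyticAt ℂ μ b)
    (h1 : ∀ b ∈ B, D.ξ (σ b) = D.t b * μ b) :
    ∃ σ' : (Fin m → ℂ) → D.bub.X, IsSec D.bub B σ' ∧
      ∀ b ∈ B, D.ρ (σ' b) = σ b ∧ D.a (σ' b) = (μ b : OnePoint ℂ) := by
  classical
  have hP : ∀ b ∈ B, D.P (σ b, (μ b : OnePoint ℂ)) := by
    intro b hb
    refine ⟨hU b hb, rel2_coe ?_⟩
    change D.ξ (σ b) = D.t (S.π (σ b)) * μ b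
    rw [(hσ b hb).1]; exact h1 b hb
  obtain ⟨b₀, hb₀⟩ := hne
  let σ' : (Fin m → ℂ) → D.Sp := fun b =>
    if h : D.P (σ b, (μ b : OnePoint ℂ)) then ⟨_, h⟩ else ⟨_, hP b₀ hb₀⟩
  have e : ∀ b ∈ B, (σ' b).1 = (σ b, (μ b : OnePoint ℂ)) := by
    intro b hb
    have : σ' b = ⟨_, hP b hb⟩ := dif_pos (hP b hb)
    rw [this]
  have eρ : ∀ b ∈ B, D.ρ (σ' b) = σ b := fun b hb => congrArg Prod.fst (e b hb)
  have ea : ∀ b ∈ B, D.a (σ' b) = (μ b : OnePoint ℂ) := fun b hb => congrArg Prod.snd (e b hb)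
  refine ⟨σ', ?_, fun b hb => ⟨eρ b hb, ea b hb⟩⟩
  intro b hb
  have hc : ContinuousAt σ' b := by
    refine Topology.IsInducing.subtypeVal.continuousAt_iff.2 ?_
    have h3 : ContinuousAt (fun b => (σ b, (μ b : OnePoint ℂ))) b :=
      (hσ b hb).2.1.prodMk (cont_coe.continuousAt.comp (hμ b hb).continuousAt)
    refine h3.congr ?_
    filter_upwards [hB.mem_nhds hb] with b' hb'
    exact (e b' hb').symm
  refine ⟨?_, hc, ?_⟩
  · change S.π (D.ρ (σ' b)) = b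
    rw [eρ b hb]; exact (hσ b hb).1
  · intro f hf
    have ha : D.a (σ' b) ≠ ∞ := by rw [ea b hb]; exact coe_ne_infty _
    have hf' : Germ D.F₁ (σ' b) f := (hol_fin ha f).1 hf
    refine hf'.sec hc ?_
    have h4 : AnalyticAt ℂ (fun b' : Fin m → ℂ => ((b', μ b') : (Fin m → ℂ) × ℂ)) b :=
      AnalyticAt.prod analyticAt_id (hμ b hb)
    refine h4.congr ?_
    filter_upwards [hB.mem_nhds hb] with b' hb'
    change (b', μ b') = (S.π (D.ρ (σ' b')), fv (D.a (σ' b')))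
    rw [eρ b' hb', ea b' hb', fv_coe, (hσ b' hb').1]

/-- lift of a section with a given inverse value of `a` -/
theorem sec_inv {B : Set (Fin m → ℂ)} (hB : IsOpen B) (hne : B.Nonempty)
    {σ : (Fin m → ℂ) → S.X} (hσ : IsSec S B σ) (hU : ∀ b ∈ B, σ b ∈ D.U)
    {γ : (Fin m → ℂ) → ℂ} (hγ : ∀ b ∈ B, AnalyticAt ℂ γ b)
    (h1 : ∀ b ∈ B, D.ξ (σ b) * γ b = D.t b) :
    ∃ σ' : (Fin m → ℂ) → D.bub.X, IsSec D.bub B σ' ∧
      ∀ b ∈ B, D.ρ (σ' b) = σ b ∧ D.a (σ' b) = oi (γ b) := by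
  classical
  have hP : ∀ b ∈ B, D.P (σ b, oi (γ b)) := by
    intro b hb
    refine ⟨hU b hb, rel2_oi ?_⟩
    change D.ξ (σ b) * γ b = D.t (S.π (σ b))
    rw [(hσ b hb).1]; exact h1 b hb
  obtain ⟨b₀, hb₀⟩ := hne
  let σ' : (Fin m → ℂ) → D.Sp := fun b =>
    if h : D.P (σ b, oi (γ b)) then ⟨_, h⟩ else ⟨_, hP b₀ hb₀⟩
  have e : ∀ b ∈ B, (σ' b).1 = (σ b, oi (γ b)) := by
    intro b hb
    have : σ' b = ⟨_, hP b hb⟩ := dif_pos (hP b hb)
    rw [this]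
  have eρ : ∀ b ∈ B, D.ρ (σ' b) = σ b := fun b hb => congrArg Prod.fst (e b hb)
  have ea : ∀ b ∈ B, D.a (σ' b) = oi (γ b) := fun b hb => congrArg Prod.snd (e b hb)
  refine ⟨σ', ?_, fun b hb => ⟨eρ b hb, ea b hb⟩⟩
  intro b hb
  have hc : ContinuousAt σ' b := by
    refine Topology.IsInducing.subtypeVal.continuousAt_iff.2 ?_
    have h3 : ContinuousAt (fun b => (σ b, oi (γ b))) b :=
      (hσ b hb).2.1.prodMk (cont_oi.continuousAt.comp (hγ b hb).continuousAt)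
    refine h3.congr ?_
    filter_upwards [hB.mem_nhds hb] with b' hb'
    exact (e b' hb').symm
  refine ⟨?_, hc, ?_⟩
  · change S.π (D.ρ (σ' b)) = b
    rw [eρ b hb]; exact (hσ b hb).1
  · intro f hf
    have ha : D.a (σ' b) ≠ oz := by rw [ea b hb]; exact oi_ne_oz _
    have hf' : Germ D.E₂ (σ' b) f := (hol_inv ha f).1 hf
    refine hf'.sec hc ?_
    have hu : AnalyticAt ℂ (fun b' => D.ξ (σ b')) b :=
      (hσ b hb).2.2 _ (D.co.hol_ξ (hU b hb))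
    have h4 : AnalyticAt ℂ (fun b' : Fin m → ℂ => ((b', D.ξ (σ b'), γ b') : Amb m)) b :=
      AnalyticAt.prod analyticAt_id (AnalyticAt.prod hu (hγ b hb))
    refine h4.congr ?_
    filter_upwards [hB.mem_nhds hb] with b' hb'
    change (b', D.ξ (σ b'), γ b') = (S.π (D.ρ (σ' b')), D.ξ (D.ρ (σ' b')), iv (D.a (σ' b')))
    rw [eρ b' hb', ea b' hb', iv_oi, (hσ b' hb').1]

/-- points with finite `a` are smooth -/
theorem smooth₁ {y : D.bub.X} (ha : D.a y ≠ ∞) : D.bub.SmoothAt y := by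
  obtain ⟨V, u, v, h1, -, h2, h3, -⟩ := D.coord₁.model (y := y) ha
  refine ⟨V, u, v, _, h1, h2, Or.inl ?_⟩
  intro h
  have h4 := h3 y
  rw [h] at h4
  simp at h4

theorem smooth₂ {y : D.bub.X} (ha : D.a y ≠ oz) (h : D.ξ (D.ρ y) ≠ 0 ∨ D.ia y ≠ 0) :
    D.bub.SmoothAt y := ⟨_, _, _, _, ha, D.model₂, h⟩

/-- the coordinate `a - 1` at the new mark -/
theorem coord_one : IsCoord D.bub.π D.bub.hol {y | D.a y ≠ ∞} fun y => D.fa y - 1 :=
  D.coord₁.shift (f := fun _ => 1) fun _ _ => analyticAt_const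

end BubData

end Vale.Agent.P273.H469
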