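import Vale.Agent.P273.H469.Node
import Vale.Agent.P273.H395.NodeNorm

/-!
P273: the surface `D.node` of `H469/Node.lean` satisfies the interface `NodeMod` of
`H395/NodeNorm.lean`.
-/

noncomputable section

open Set Filter Topology

namespace Vale.Agent.P273.H469

open Vale.Agent.P273.H948

theorem inf_eq_oi (c : ℂ) : H183.inf c = oi c := rfl

variable {m : ℕ} {S : Surf m}

theorem NodeData.nodeMod (D : NodeData S) :
    H395.NodeMod D.modif D.U D.u D.v D.τ₀ D.τ₁ D.a D.fa D.ia where
  Z_eq := rfl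
  N_eq := rfl
  af_eq := fun y c h => by
    change fv (D.a y) = c
    rw [h, fv_coe]
  ai_eq := fun y c h => by
    change iv (D.a y) = c
    rw [h, inf_eq_oi, iv_oi]
  emb := Topology.IsEmbedding.subtypeVal
  ex := fun x hx w h1 h2 => by
    refine ⟨⟨(x, w), hx, fun hw => ?_, fun hw => ?_⟩, rfl, rfl⟩
    · exact h1 (fv w) (coe_fv hw).symm
    · obtain ⟨h3, h4⟩ := h2 (iv w) (by rw [inf_eq_oi]; exact (oi_iv hw).symm)
      exact ⟨by rw [mul_comm]; exact h3, h4⟩
  m0 := D.model₁
  m1 := D.model₂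

end Vale.Agent.P273.H469
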