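import Vale.Agent.P273.H469.Pt
import Vale.Agent.P273.H948.Surgery

/-!
P273, insertion of a mark in a node (M3): over the chart `u v = t = τ₀ τ₁` of the nodal surface `S`
the surface `{(x, a) | u = τ₀ a, a v = τ₁} ⊆ U × OnePoint ℂ`, a modification of `S` with centre
`u = v = τ₀ = τ₁ = 0`.
-/

noncomputable section

open Set Filter Topology OnePoint

namespace Vale.Agent.P273.H469

open Vale.Agent.P273.H948

/-- the relation `u = s₀ a`, `a v = s₁` on the projective line -/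
def Rel3 (u v s₀ s₁ : ℂ) (a : OnePoint ℂ) : Prop :=
  (a ≠ ∞ → u = s₀ * fv a ∧ fv a * v = s₁) ∧ (a ≠ oz → u * iv a = s₀ ∧ v = s₁ * iv a)

theorem rel3_coe {u v s₀ s₁ z : ℂ} (h1 : u = s₀ * z) (h2 : z * v = s₁) :
    Rel3 u v s₀ s₁ (z : OnePoint ℂ) := by
  refine ⟨fun _ => ⟨h1, h2⟩, fun h => ?_⟩
  have hz := coe_ne_oz.1 h
  rw [iv_coe]
  constructor
  · rw [h1, mul_inv_cancel_right₀ hz]
  · rw [← h2, mul_comm z v, mul_inv_cancel_right₀ hz]

theorem rel3_oi {u v s₀ s₁ c : ℂ} (h1 : u * c = s₀) (h2 : v = s₁ * c) :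
    Rel3 u v s₀ s₁ (oi c) := by
  refine ⟨fun h => ?_, fun _ => ?_⟩
  · have hc : c ≠ 0 := by rintro rfl; exact h oi_zero
    rw [oi_of_ne hc, fv_coe, ← h1, h2]
    constructor
    · rw [mul_inv_cancel_right₀ hc]
    · rw [mul_comm c⁻¹, mul_inv_cancel_right₀ hc]
  · rw [iv_oi]; exact ⟨h1, h2⟩

variable {m : ℕ}

/-- data for the insertion of a mark in a node -/
structure NodeData (S : Surf m) where
  /-- the neighbourhood of the node -/
  U : Set S.X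
  /-- the first branch coordinate -/
  u : S.X → ℂ
  /-- the second branch coordinate -/
  v : S.X → ℂ
  /-- the smoothing parameter -/
  t : (Fin m → ℂ) → ℂ
  /-- its first factor -/
  τ₀ : (Fin m → ℂ) → ℂ
  /-- its second factor -/
  τ₁ : (Fin m → ℂ) → ℂ
  mod : IsModel S.π S.hol U u v t
  an₀ : ∀ x ∈ U, AnalyticAt ℂ τ₀ (S.π x)
  an₁ : ∀ x ∈ U, AnalyticAt ℂ τ₁ (S.π x)
  fac : ∀ x ∈ U, ∀ᶠ b in 𝓝 (S.π x), t b = τ₀ b * τ₁ b
  cl : IsClosed {x | x ∈ U ∧ u x = 0 ∧ v x = 0 ∧ τ₀ (S.π x) = 0 ∧ τ₁ (S.π x) = 0}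

namespace NodeData

variable {S : Surf m} (D : NodeData S)

/-- the defining condition -/
def P (p : S.X × OnePoint ℂ) : Prop :=
  p.1 ∈ D.U ∧ Rel3 (D.u p.1) (D.v p.1) (D.τ₀ (S.π p.1)) (D.τ₁ (S.π p.1)) p.2

/-- the total space -/
abbrev Sp : Type := Subtype D.P

/-- the centre -/
def Z : Set S.X := {x | x ∈ D.U ∧ D.u x = 0 ∧ D.v x = 0 ∧ D.τ₀ (S.π x) = 0 ∧ D.τ₁ (S.π x) = 0}

/-- the contraction -/
def ρ (y : D.Sp) : S.X := y.1.1

/-- the point of the projective line -/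
def a (y : D.Sp) : OnePoint ℂ := y.1.2

/-- its value -/
def fa (y : D.Sp) : ℂ := fv (D.a y)

/-- its inverse value -/
def ia (y : D.Sp) : ℂ := iv (D.a y)

/-- the first coordinate map -/
def E₁ : D.Sp → Amb m := Emap (fun y => S.π (D.ρ y)) D.fa fun y => D.v (D.ρ y)

/-- the second coordinate map -/
def E₂ : D.Sp → Amb m := Emap (fun y => S.π (D.ρ y)) (fun y => D.u (D.ρ y)) D.ia

/-- the germs of holomorphic functions -/
def hol (y : D.Sp) (g : D.Sp → ℂ) : Prop :=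
  (D.a y ≠ ∞ → Germ D.E₁ y g) ∧ (D.a y = ∞ → Germ D.E₂ y g)

variable {D}

theorem mem (y : D.Sp) : D.ρ y ∈ D.U := y.2.1

theorem rel (y : D.Sp) :
    Rel3 (D.u (D.ρ y)) (D.v (D.ρ y)) (D.τ₀ (S.π (D.ρ y))) (D.τ₁ (S.π (D.ρ y))) (D.a y) := y.2.2

theorem cρ : Continuous D.ρ := cont_ρ

theorem ca : Continuous D.a := cont_a

theorem cπ : Continuous fun y : D.Sp => S.π (D.ρ y) := S.cont_π.comp cρ

theorem cu (y : D.Sp) : ContinuousAt (fun y => D.u (D.ρ y)) y :=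
  ContinuousAt.comp (f := D.ρ) (D.mod.cont_u (mem y)) cρ.continuousAt

theorem cv (y : D.Sp) : ContinuousAt (fun y => D.v (D.ρ y)) y :=
  ContinuousAt.comp (f := D.ρ) (D.mod.cont_v (mem y)) cρ.continuousAt

theorem cfa {y : D.Sp} (h : D.a y ≠ ∞) : ContinuousAt D.fa y :=
  ContinuousAt.comp (f := D.a) (cont_fv h) ca.continuousAt

theorem cia {y : D.Sp} (h : D.a y ≠ oz) : ContinuousAt D.ia y :=
  ContinuousAt.comp (f := D.a) (cont_iv h) ca.continuousAt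

theorem ev_fin {y : D.Sp} (h : D.a y ≠ ∞) : ∀ᶠ z in 𝓝 y, D.a z ≠ ∞ :=
  ca.continuousAt.eventually (isOpen_fin.mem_nhds h)

theorem ev_inv {y : D.Sp} (h : D.a y ≠ oz) : ∀ᶠ z in 𝓝 y, D.a z ≠ oz :=
  ca.continuousAt.eventually (isOpen_inv.mem_nhds h)

/-- from the first to the second chart -/
theorem tr₁₂ {y : D.Sp} (h : D.a y ≠ ∞) (h0 : D.a y ≠ oz) {g : D.Sp → ℂ}
    (hg : Germ D.E₂ y g) : Germ D.E₁ y g := by
  have h1 : fv (D.a y) ≠ 0 := fv_ne_zero h h0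
  refine hg.trans (φ := fun p : Amb m => (p.1, D.τ₀ p.1 * p.2.1, (p.2.1)⁻¹)) ?_ ?_
  · have h2 : AnalyticAt ℂ (fun p : Amb m => D.τ₀ p.1) (D.E₁ y) :=
      AnalyticAt.comp (g := D.τ₀) (D.an₀ _ (mem y)) (an_b _)
    exact AnalyticAt.prod (an_b _) (AnalyticAt.prod (h2.mul (an_u _)) ((an_u _).inv h1))
  · filter_upwards [ev_fin h] with z hz
    have h3 := ((rel z).1 hz).1
    simp only [E₂, E₁, Emap, Function.comp_apply, fa, ia, ← h3, iv_eq_inv]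

/-- from the second to the first chart -/
theorem tr₂₁ {y : D.Sp} (h : D.a y ≠ ∞) (h0 : D.a y ≠ oz) {g : D.Sp → ℂ}
    (hg : Germ D.E₁ y g) : Germ D.E₂ y g := by
  have h1 : iv (D.a y) ≠ 0 := iv_ne_zero h h0
  refine hg.trans (φ := fun p : Amb m => (p.1, (p.2.2)⁻¹, D.τ₁ p.1 * p.2.2)) ?_ ?_
  · have h2 : AnalyticAt ℂ (fun p : Amb m => D.τ₁ p.1) (D.E₂ y) :=
      AnalyticAt.comp (g := D.τ₁) (D.an₁ _ (mem y)) (an_b _)
    exact AnalyticAt.prod (an_b _) (AnalyticAt.prod ((an_v _).inv h1) (h2.mul (an_v _)))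
  · filter_upwards [ev_inv h0] with z hz
    have h3 := ((rel z).2 hz).2
    simp only [E₂, E₁, Emap, Function.comp_apply, fa, ia]
    rw [← h3, iv_eq_inv, inv_inv]

theorem hol_fin {y : D.Sp} (h : D.a y ≠ ∞) (g : D.Sp → ℂ) : D.hol y g ↔ Germ D.E₁ y g :=
  ⟨fun hg => hg.1 h, fun hg => ⟨fun _ => hg, fun h' => absurd h' h⟩⟩

theorem hol_inv {y : D.Sp} (h0 : D.a y ≠ oz) (g : D.Sp → ℂ) : D.hol y g ↔ Germ D.E₂ y g := by
  by_cases h : D.a y = ∞
  · exact ⟨fun hg => hg.2 h, fun hg => ⟨fun h' => absurd h h', fun _ => hg⟩⟩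
  · rw [hol_fin h]
    exact ⟨tr₂₁ h h0, tr₁₂ h h0⟩

theorem fac' {x : S.X} (hx : x ∈ D.U) : D.t (S.π x) = D.τ₀ (S.π x) * D.τ₁ (S.π x) :=
  (D.fac x hx).self_of_nhds

theorem inj₁ {y z : D.Sp} (hy : D.a y ≠ ∞) (hz : D.a z ≠ ∞) (e : D.E₁ y = D.E₁ z) : y = z := by
  simp only [E₁, Emap, Prod.mk.injEq] at e
  obtain ⟨e1, e2, e3⟩ := e
  have ea : D.a y = D.a z := by
    rw [← coe_fv hy, ← coe_fv hz]
    exact congrArg _ e2
  have eu : D.u (D.ρ y) = D.u (D.ρ z) := by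
    rw [((rel y).1 hy).1, ((rel z).1 hz).1, e1]
    exact congrArg _ e2
  have ex : D.ρ y = D.ρ z := D.mod.inj (mem y) (mem z) (by simp only [Emap, e1, eu, e3])
  exact Subtype.ext (Prod.ext ex ea)

theorem inj₂ {y z : D.Sp} (hy : D.a y ≠ oz) (hz : D.a z ≠ oz) (e : D.E₂ y = D.E₂ z) : y = z := by
  simp only [E₂, Emap, Prod.mk.injEq] at e
  obtain ⟨e1, e2, e3⟩ := e
  have ea : D.a y = D.a z := by
    rw [← oi_iv hy, ← oi_iv hz]
    exact congrArg _ e3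
  have ev : D.v (D.ρ y) = D.v (D.ρ z) := by
    rw [((rel y).2 hy).2, ((rel z).2 hz).2, e1]
    exact congrArg _ e3
  have ex : D.ρ y = D.ρ z := D.mod.inj (mem y) (mem z) (by simp only [Emap, e1, e2, ev])
  exact Subtype.ext (Prod.ext ex ea)

theorem cE₁ {y : D.Sp} (h : D.a y ≠ ∞) : ContinuousAt D.E₁ y :=
  cπ.continuousAt.prodMk ((cfa h).prodMk (cv y))

theorem cE₂ {y : D.Sp} (h : D.a y ≠ oz) : ContinuousAt D.E₂ y :=
  cπ.continuousAt.prodMk ((cu y).prodMk (cia h))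

theorem nhds₁ {y : D.Sp} (h : D.a y ≠ ∞) : map D.E₁ (𝓝 y) = 𝓝[Mset D.τ₁] (D.E₁ y) := by
  have hx : y.1.1 ∈ D.U := mem y
  have h2 : AnalyticAt ℂ (fun p : Amb m => D.τ₀ p.1) (D.E₁ y) :=
    AnalyticAt.comp (g := D.τ₀) (D.an₀ _ (mem y)) (an_b _)
  refine nhds_lift (E := Emap S.π D.u D.v) (T := Mset D.t) (U := D.U)
    (κ := fun p => (p.1, D.τ₀ p.1 * p.2.1, p.2.2)) (σ := fun p => (p.2.1 : OnePoint ℂ))
    (D.mod.isOpen.mem_nhds hx) (D.mod.nhds _ hx) (cE₁ h) ?_ ?_ ?_ ?_ ?_ ?_ ?_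
  · filter_upwards [ev_fin h] with z hz
    exact ((rel z).1 hz).2
  · exact (AnalyticAt.prod (an_b _) (AnalyticAt.prod (h2.mul (an_u _)) (an_v _))).continuousAt
  · have h3 := ((rel y).1 h).1
    change (S.π (D.ρ y), D.τ₀ (S.π (D.ρ y)) * fv (D.a y), D.v (D.ρ y)) =
      (S.π (D.ρ y), D.u (D.ρ y), D.v (D.ρ y))
    rw [← h3]
  · exact cont_coe.continuousAt.comp (an_u _).continuousAt
  · exact coe_fv h
  · have h5 : ContinuousAt (fun p : Amb m => p.1) (D.E₁ y) := (an_b _).continuousAt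
    have h4 : ∀ᶠ p : Amb m in 𝓝 (D.E₁ y), D.t p.1 = D.τ₀ p.1 * D.τ₁ p.1 :=
      h5 (D.fac _ hx)
    filter_upwards [nhdsWithin_le_nhds h4, self_mem_nhdsWithin] with p hp hp2
    have hp2' : p.2.1 * p.2.2 = D.τ₁ p.1 := hp2
    change D.τ₀ p.1 * p.2.1 * p.2.2 = D.t p.1
    rw [hp, mul_assoc, hp2']
  · filter_upwards [self_mem_nhdsWithin] with p hp2 x' hx' e
    have hp2' : p.2.1 * p.2.2 = D.τ₁ p.1 := hp2
    simp only [Emap, Prod.mk.injEq] at e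
    obtain ⟨e1, e2, e3⟩ := e
    have hP : D.P (x', (p.2.1 : OnePoint ℂ)) := by
      refine ⟨hx', rel3_coe ?_ ?_⟩
      · rw [e1, e2]
      · rw [e1, e3, hp2']
    refine ⟨hP, ?_⟩
    change (S.π x', fv (p.2.1 : OnePoint ℂ), D.v x') = p
    rw [e1, e3, fv_coe]

theorem nhds₂ {y : D.Sp} (h : D.a y ≠ oz) : map D.E₂ (𝓝 y) = 𝓝[Mset D.τ₀] (D.E₂ y) := by
  have hx : y.1.1 ∈ D.U := mem y
  have h2 : AnalyticAt ℂ (fun p : Amb m => D.τ₁ p.1) (D.E₂ y) :=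
    AnalyticAt.comp (g := D.τ₁) (D.an₁ _ (mem y)) (an_b _)
  refine nhds_lift (E := Emap S.π D.u D.v) (T := Mset D.t) (U := D.U)
    (κ := fun p => (p.1, p.2.1, D.τ₁ p.1 * p.2.2)) (σ := fun p => oi p.2.2)
    (D.mod.isOpen.mem_nhds hx) (D.mod.nhds _ hx) (cE₂ h) ?_ ?_ ?_ ?_ ?_ ?_ ?_
  · filter_upwards [ev_inv h] with z hz
    exact ((rel z).2 hz).1
  · exact (AnalyticAt.prod (an_b _) (AnalyticAt.prod (an_u _) (h2.mul (an_v _)))).continuousAt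
  · have h3 := ((rel y).2 h).2
    change (S.π (D.ρ y), D.u (D.ρ y), D.τ₁ (S.π (D.ρ y)) * iv (D.a y)) =
      (S.π (D.ρ y), D.u (D.ρ y), D.v (D.ρ y))
    rw [← h3]
  · exact cont_oi.continuousAt.comp (an_v _).continuousAt
  · exact oi_iv h
  · have h5 : ContinuousAt (fun p : Amb m => p.1) (D.E₂ y) := (an_b _).continuousAt
    have h4 : ∀ᶠ p : Amb m in 𝓝 (D.E₂ y), D.t p.1 = D.τ₀ p.1 * D.τ₁ p.1 :=
      h5 (D.fac _ hx)
    filter_upwards [nhdsWithin_le_nhds h4, self_mem_nhdsWithin] with p hp hp2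
    have hp2' : p.2.1 * p.2.2 = D.τ₀ p.1 := hp2
    change p.2.1 * (D.τ₁ p.1 * p.2.2) = D.t p.1
    rw [hp, ← hp2']; ring
  · filter_upwards [self_mem_nhdsWithin] with p hp2 x' hx' e
    have hp2' : p.2.1 * p.2.2 = D.τ₀ p.1 := hp2
    simp only [Emap, Prod.mk.injEq] at e
    obtain ⟨e1, e2, e3⟩ := e
    have hP : D.P (x', oi p.2.2) := by
      refine ⟨hx', rel3_oi ?_ ?_⟩
      · rw [e1, e2, hp2']
      · rw [e1, e3]
    refine ⟨hP, ?_⟩
    change (S.π x', D.u x', iv (oi p.2.2)) = p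
    rw [e1, e2, iv_oi]

variable (D) in
/-- the chart `a v = τ₁` -/
theorem model₁ : IsModel (fun y => S.π (D.ρ y)) D.hol {y | D.a y ≠ ∞} D.fa (fun y => D.v (D.ρ y))
    D.τ₁ where
  isOpen := isOpen_fin.preimage ca
  inj := fun _ hy _ hz e => inj₁ hy hz e
  eqn := fun y hy => ((rel y).1 hy).2
  an := fun y _ => D.an₁ _ (mem y)
  nhds := fun _ hy => nhds₁ hy
  hol := fun _ hy g => hol_fin hy g

variable (D) in
/-- the chart `u a⁻¹ = τ₀` -/
theorem model₂ : IsModel (fun y => S.π (D.ρ y)) D.hol {y | D.a y ≠ oz} (fun y => D.u (D.ρ y)) D.ia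
    D.τ₀ where
  isOpen := isOpen_inv.preimage ca
  inj := fun _ hy _ hz e => inj₂ hy hz e
  eqn := fun y hy => ((rel y).2 hy).1
  an := fun y _ => D.an₀ _ (mem y)
  nhds := fun _ hy => nhds₂ hy
  hol := fun _ hy g => hol_inv hy g

variable (D) in
/-- the new surface -/
def node : Surf m where
  X := D.Sp
  top := inferInstance
  t2 := inferInstance
  π y := S.π (D.ρ y)
  hol := D.hol
  model y := by
    by_cases h : D.a y = ∞
    · exact ⟨_, _, _, _, by rw [Set.mem_ofPred_eq, h]; exact (coe_ne_infty 0).symm, D.model₂⟩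
    · exact ⟨_, _, _, _, h, D.model₁⟩

/-- pull back of holomorphic functions -/
theorem pull (y : D.Sp) (g : S.X → ℂ) (hg : S.hol (D.ρ y) g) : D.hol y (g ∘ D.ρ) := by
  have h1 : Germ (Emap S.π D.u D.v) (D.ρ y) g := (isModel_hol D.mod (mem y) g).1 hg
  have h2 : Germ (Emap S.π D.u D.v ∘ D.ρ) y (g ∘ D.ρ) := h1.pull cρ.continuousAt
  by_cases h : D.a y = ∞
  · have h0 : D.a y ≠ oz := by rw [h]; exact (coe_ne_infty 0).symm
    rw [hol_inv h0]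
    have h3 : AnalyticAt ℂ (fun p : Amb m => D.τ₁ p.1) (D.E₂ y) :=
      AnalyticAt.comp (g := D.τ₁) (D.an₁ _ (mem y)) (an_b _)
    refine h2.trans (φ := fun p : Amb m => (p.1, p.2.1, D.τ₁ p.1 * p.2.2))
      (AnalyticAt.prod (an_b _) (AnalyticAt.prod (an_u _) (h3.mul (an_v _)))) ?_
    filter_upwards [ev_inv h0] with z hz
    have h4 := ((rel z).2 hz).2
    simp only [E₂, Emap, Function.comp_apply, ia, ← h4]
  · rw [hol_fin h]
    have h3 : AnalyticAt ℂ (fun p : Amb m => D.τ₀ p.1) (D.E₁ y) :=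
      AnalyticAt.comp (g := D.τ₀) (D.an₀ _ (mem y)) (an_b _)
    refine h2.trans (φ := fun p : Amb m => (p.1, D.τ₀ p.1 * p.2.1, p.2.2))
      (AnalyticAt.prod (an_b _) (AnalyticAt.prod (h3.mul (an_u _)) (an_v _))) ?_
    filter_upwards [ev_fin h] with z hz
    have h4 := ((rel z).1 hz).1
    simp only [E₁, Emap, Function.comp_apply, fa, ← h4]

/-- the fibre over a point of the centre is the whole projective line -/
theorem mem_of_Z {x : S.X} (hx : x ∈ D.Z) (a : OnePoint ℂ) : D.P (x, a) := by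
  obtain ⟨h0, h1, h2, h3, h4⟩ := hx
  refine ⟨h0, fun _ => ?_, fun _ => ?_⟩
  · change D.u x = D.τ₀ (S.π x) * fv a ∧ fv a * D.v x = D.τ₁ (S.π x)
    rw [h1, h2, h3, h4]; simp
  · change D.u x * iv a = D.τ₀ (S.π x) ∧ D.v x = D.τ₁ (S.π x) * iv a
    rw [h1, h2, h3, h4]; simp

/-- off the centre the fibre is at most one point -/
theorem inj_ρ {y z : D.Sp} (hy : D.ρ y ∉ D.Z) (e : D.ρ y = D.ρ z) : y = z := by
  have key : ∀ y z : D.Sp, D.ρ y = D.ρ z → D.ρ y ∉ D.Z → D.a y ≠ ∞ → D.a y = D.a z := by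
    intro y z e hy ha
    obtain ⟨h1, h2⟩ := (rel y).1 ha
    by_cases hz : D.a z = ∞
    · exfalso
      have hz0 : D.a z ≠ oz := by rw [hz]; exact (coe_ne_infty 0).symm
      obtain ⟨h3, h4⟩ := (rel z).2 hz0
      rw [hz, iv_infty, mul_zero, ← e] at h3 h4
      rw [← h3, zero_mul] at h1
      rw [h4, mul_zero] at h2
      exact hy ⟨mem y, h1, h4, h3.symm, h2.symm⟩
    · obtain ⟨h3, h4⟩ := (rel z).1 hz
      rw [← e] at h3 h4
      by_contra hne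
      have hne' : fv (D.a y) ≠ fv (D.a z) := by
        intro e'
        apply hne
        rw [← coe_fv ha, ← coe_fv hz, e']
      have hs0 : D.τ₀ (S.π (D.ρ y)) = 0 := by
        by_contra hs
        exact hne' (mul_left_cancel₀ hs (h1.symm.trans h3))
      have hv0 : D.v (D.ρ y) = 0 := by
        by_contra hs
        exact hne' (mul_right_cancel₀ hs (h2.trans h4.symm))
      rw [hs0, zero_mul] at h1
      rw [hv0, mul_zero] at h2
      exact hy ⟨mem y, h1, hv0, hs0, h2.symm⟩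
  have ea : D.a y = D.a z := by
    by_cases ha : D.a y = ∞
    · by_cases hz : D.a z = ∞
      · rw [ha, hz]
      · exact (key z y e.symm (by rw [← e]; exact hy) hz).symm
    · exact key y z e hy ha
  exact Subtype.ext (Prod.ext e ea)

theorem surj (x : S.X) (hx : x ∈ D.U) : ∃ y : D.Sp, D.ρ y = x := by
  have hf := fac' hx
  have he := D.mod.eqn x hx
  by_cases h0 : D.τ₀ (S.π x) = 0
  · by_cases hv : D.v x = 0
    · refine ⟨⟨(x, oi 0), hx, rel3_oi ?_ ?_⟩, rfl⟩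
      · change D.u x * 0 = D.τ₀ (S.π x)
        rw [h0, mul_zero]
      · change D.v x = D.τ₁ (S.π x) * 0
        rw [hv, mul_zero]
    · refine ⟨⟨(x, ((D.τ₁ (S.π x) / D.v x : ℂ) : OnePoint ℂ)), hx, rel3_coe ?_ ?_⟩, rfl⟩
      · change D.u x = D.τ₀ (S.π x) * _
        rw [h0, zero_mul]
        rw [hf, h0, zero_mul] at he
        exact (mul_eq_zero.1 he).resolve_right hv
      · exact div_mul_cancel₀ _ hv
  · refine ⟨⟨(x, ((D.u x / D.τ₀ (S.π x) : ℂ) : OnePoint ℂ)), hx, rel3_coe ?_ ?_⟩, rfl⟩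
    · change D.u x = D.τ₀ (S.π x) * (D.u x / D.τ₀ (S.π x))
      rw [mul_div_cancel₀ _ h0]
    · change D.u x / D.τ₀ (S.π x) * D.v x = D.τ₁ (S.π x)
      rw [div_mul_eq_mul_div, he, hf, mul_div_cancel_left₀ _ h0]

/-- off the centre one of the two values of `a` is a holomorphic function downstairs -/
theorem exists_k {y : D.Sp} (hy : D.ρ y ∉ D.Z) :
    (D.a y ≠ ∞ ∧ ∃ k : Amb m → ℂ, AnalyticAt ℂ k (Emap S.π D.u D.v (D.ρ y)) ∧
      (∀ᶠ x in 𝓝 (D.ρ y), D.P (x, (k (Emap S.π D.u D.v x) : OnePoint ℂ))) ∧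
      ∀ᶠ z in 𝓝 y, D.fa z = k (Emap S.π D.u D.v (D.ρ z))) ∨
    (D.a y ≠ oz ∧ D.a y = ∞ ∧ ∃ k : Amb m → ℂ, AnalyticAt ℂ k (Emap S.π D.u D.v (D.ρ y)) ∧
      (∀ᶠ x in 𝓝 (D.ρ y), D.P (x, oi (k (Emap S.π D.u D.v x)))) ∧
      ∀ᶠ z in 𝓝 y, D.ia z = k (Emap S.π D.u D.v (D.ρ z))) := by
  have hU := D.mod.isOpen.mem_nhds (mem y)
  have a₀ : AnalyticAt ℂ (fun p : Amb m => D.τ₀ p.1) (Emap S.π D.u D.v (D.ρ y)) :=
    AnalyticAt.comp (g := D.τ₀) (D.an₀ _ (mem y)) (an_b _)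
  have a₁ : AnalyticAt ℂ (fun p : Amb m => D.τ₁ p.1) (Emap S.π D.u D.v (D.ρ y)) :=
    AnalyticAt.comp (g := D.τ₁) (D.an₁ _ (mem y)) (an_b _)
  have c₀ : ContinuousAt (fun x => D.τ₀ (S.π x)) (D.ρ y) :=
    ContinuousAt.comp (f := S.π) (D.an₀ _ (mem y)).continuousAt S.cont_π.continuousAt
  have c₁ : ContinuousAt (fun x => D.τ₁ (S.π x)) (D.ρ y) :=
    ContinuousAt.comp (f := S.π) (D.an₁ _ (mem y)).continuousAt S.cont_π.continuousAt
  have cu' := D.mod.cont_u (mem y)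
  have cv' := D.mod.cont_v (mem y)
  by_cases ha : D.a y = ∞
  · right
    have ha0 : D.a y ≠ oz := by rw [ha]; exact (coe_ne_infty 0).symm
    refine ⟨ha0, ha, ?_⟩
    obtain ⟨h1, h2⟩ := (rel y).2 ha0
    rw [ha, iv_infty, mul_zero] at h1 h2
    by_cases hu : D.u (D.ρ y) = 0
    · have ht : D.τ₁ (S.π (D.ρ y)) ≠ 0 := fun h => hy ⟨mem y, hu, h2, h1.symm, h⟩
      refine ⟨fun p => p.2.2 / D.τ₁ p.1, (an_v _).div a₁ ht, ?_, ?_⟩
      · filter_upwards [hU, c₁.eventually_ne ht] with x hx hx1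
        refine ⟨hx, rel3_oi ?_ ?_⟩
        · change D.u x * (D.v x / D.τ₁ (S.π x)) = D.τ₀ (S.π x)
          rw [mul_div_assoc', D.mod.eqn x hx, fac' hx, mul_div_cancel_right₀ _ hx1]
        · change D.v x = D.τ₁ (S.π x) * (D.v x / D.τ₁ (S.π x))
          rw [mul_div_cancel₀ _ hx1]
      · filter_upwards [ev_inv ha0, cρ.continuousAt.eventually (c₁.eventually_ne ht)] with z hz hz1
        have h3 := ((rel z).2 hz).2
        change iv (D.a z) = D.v (D.ρ z) / D.τ₁ (S.π (D.ρ z))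
        rw [h3, mul_div_cancel_left₀ _ hz1]
    · refine ⟨fun p => D.τ₀ p.1 / p.2.1, a₀.div (an_u _) hu, ?_, ?_⟩
      · filter_upwards [hU, cu'.eventually_ne hu] with x hx hx1
        refine ⟨hx, rel3_oi ?_ ?_⟩
        · change D.u x * (D.τ₀ (S.π x) / D.u x) = D.τ₀ (S.π x)
          rw [mul_div_cancel₀ _ hx1]
        · change D.v x = D.τ₁ (S.π x) * (D.τ₀ (S.π x) / D.u x)
          rw [mul_div_assoc', mul_comm (D.τ₁ _), ← fac' hx, ← D.mod.eqn x hx,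
            mul_div_cancel_left₀ _ hx1]
      · filter_upwards [ev_inv ha0, cρ.continuousAt.eventually (cu'.eventually_ne hu)] with z hz hz1
        have h3 := ((rel z).2 hz).1
        change iv (D.a z) = D.τ₀ (S.π (D.ρ z)) / D.u (D.ρ z)
        rw [← h3, mul_div_cancel_left₀ _ hz1]
  · left
    refine ⟨ha, ?_⟩
    obtain ⟨h1, h2⟩ := (rel y).1 ha
    by_cases ht : D.τ₀ (S.π (D.ρ y)) = 0
    · have hv : D.v (D.ρ y) ≠ 0 := by
        intro hv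
        rw [ht, zero_mul] at h1
        rw [hv, mul_zero] at h2
        exact hy ⟨mem y, h1, hv, ht, h2.symm⟩
      refine ⟨fun p => D.τ₁ p.1 / p.2.2, a₁.div (an_v _) hv, ?_, ?_⟩
      · filter_upwards [hU, cv'.eventually_ne hv] with x hx hx1
        refine ⟨hx, rel3_coe ?_ ?_⟩
        · change D.u x = D.τ₀ (S.π x) * (D.τ₁ (S.π x) / D.v x)
          rw [mul_div_assoc', ← fac' hx, ← D.mod.eqn x hx, mul_div_cancel_right₀ _ hx1]
        · change D.τ₁ (S.π x) / D.v x * D.v x = D.τ₁ (S.π x)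
          rw [div_mul_cancel₀ _ hx1]
      · filter_upwards [ev_fin ha, cρ.continuousAt.eventually (cv'.eventually_ne hv)] with z hz hz1
        have h3 := ((rel z).1 hz).2
        change fv (D.a z) = D.τ₁ (S.π (D.ρ z)) / D.v (D.ρ z)
        rw [← h3, mul_div_cancel_right₀ _ hz1]
    · refine ⟨fun p => p.2.1 / D.τ₀ p.1, (an_u _).div a₀ ht, ?_, ?_⟩
      · filter_upwards [hU, c₀.eventually_ne ht] with x hx hx1
        refine ⟨hx, rel3_coe ?_ ?_⟩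
        · change D.u x = D.τ₀ (S.π x) * (D.u x / D.τ₀ (S.π x))
          rw [mul_div_cancel₀ _ hx1]
        · change D.u x / D.τ₀ (S.π x) * D.v x = D.τ₁ (S.π x)
          rw [div_mul_eq_mul_div, D.mod.eqn x hx, fac' hx, mul_div_cancel_left₀ _ hx1]
      · filter_upwards [ev_fin ha, cρ.continuousAt.eventually (c₀.eventually_ne ht)] with z hz hz1
        have h3 := ((rel z).1 hz).1
        change fv (D.a z) = D.u (D.ρ z) / D.τ₀ (S.π (D.ρ z))
        rw [h3, mul_div_cancel_left₀ _ hz1]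

theorem nhds_ρ (y : D.Sp) (hy : D.ρ y ∉ D.Z) : 𝓝 (D.ρ y) ≤ map D.ρ (𝓝 y) := by
  rcases exists_k hy with ⟨ha, k, hk, h1, h2⟩ | ⟨ha, -, k, hk, h1, h2⟩
  · refine open_of_section (α := fun x => (k (Emap S.π D.u D.v x) : OnePoint ℂ)) ?_ ?_ h1
    · exact cont_coe.continuousAt.comp
        (ContinuousAt.comp (f := Emap S.π D.u D.v) hk.continuousAt (D.mod.cont (mem y)))
    · have := h2.self_of_nhds
      change ((k (Emap S.π D.u D.v (D.ρ y)) : ℂ) : OnePoint ℂ) = D.a y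
      rw [← this]; exact coe_fv ha
  · refine open_of_section (α := fun x => oi (k (Emap S.π D.u D.v x))) ?_ ?_ h1
    · exact cont_oi.continuousAt.comp
        (ContinuousAt.comp (f := Emap S.π D.u D.v) hk.continuousAt (D.mod.cont (mem y)))
    · have := h2.self_of_nhds
      change oi (k (Emap S.π D.u D.v (D.ρ y))) = D.a y
      rw [← this]; exact oi_iv ha

theorem hhol_ρ (y : D.Sp) (hy : D.ρ y ∉ D.Z) (g : D.Sp → ℂ) (hg : D.hol y g) :
    ∃ g', S.hol (D.ρ y) g' ∧ g =ᶠ[𝓝 y] g' ∘ D.ρ := by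
  rcases exists_k hy with ⟨ha, k, hk, h1, h2⟩ | ⟨ha, -, k, hk, h1, h2⟩
  · obtain ⟨h, hh, e⟩ := (hol_fin ha g).1 hg
    let φ : Amb m → Amb m := fun p => (p.1, k p, p.2.2)
    have hφ : AnalyticAt ℂ φ (Emap S.π D.u D.v (D.ρ y)) :=
      AnalyticAt.prod (an_b _) (AnalyticAt.prod hk (an_v _))
    have e0 : ∀ᶠ z in 𝓝 y, D.E₁ z = φ (Emap S.π D.u D.v (D.ρ z)) := by
      filter_upwards [h2] with z hz
      change (S.π (D.ρ z), D.fa z, D.v (D.ρ z)) = (S.π (D.ρ z), k _, D.v (D.ρ z))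
      rw [hz]
    refine ⟨(h ∘ φ) ∘ Emap S.π D.u D.v, ?_, ?_⟩
    · refine (isModel_hol D.mod (mem y) _).2 ⟨h ∘ φ, ?_, EventuallyEq.rfl⟩
      rw [e0.self_of_nhds] at hh
      exact hh.comp hφ
    · filter_upwards [e, e0] with z h3 h4
      rw [h3, Function.comp_apply, h4]
      rfl
  · obtain ⟨h, hh, e⟩ := (hol_inv ha g).1 hg
    let φ : Amb m → Amb m := fun p => (p.1, p.2.1, k p)
    have hφ : AnalyticAt ℂ φ (Emap S.π D.u D.v (D.ρ y)) :=
      AnalyticAt.prod (an_b _) (AnalyticAt.prod (an_u _) hk)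
    have e0 : ∀ᶠ z in 𝓝 y, D.E₂ z = φ (Emap S.π D.u D.v (D.ρ z)) := by
      filter_upwards [h2] with z hz
      change (S.π (D.ρ z), D.u (D.ρ z), D.ia z) = (S.π (D.ρ z), D.u (D.ρ z), k _)
      rw [hz]
    refine ⟨(h ∘ φ) ∘ Emap S.π D.u D.v, ?_, ?_⟩
    · refine (isModel_hol D.mod (mem y) _).2 ⟨h ∘ φ, ?_, EventuallyEq.rfl⟩
      rw [e0.self_of_nhds] at hh
      exact hh.comp hφ
    · filter_upwards [e, e0] with z h3 h4
      rw [h3, Function.comp_apply, h4]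
      rfl

/-- the defining condition is closed over `U` -/
theorem closed_P {𝒱 : Ultrafilter D.Sp} {x : S.X} (hx : x ∈ D.U) {a₀ : OnePoint ℂ}
    (h1 : map D.ρ 𝒱 ≤ 𝓝 x) (h2 : map D.a 𝒱 ≤ 𝓝 a₀) : D.P (x, a₀) := by
  have t1 : Tendsto D.ρ (𝒱 : Filter D.Sp) (𝓝 x) := h1
  have t2 : Tendsto D.a (𝒱 : Filter D.Sp) (𝓝 a₀) := h2
  have tb : Tendsto (fun y => S.π (D.ρ y)) (𝒱 : Filter D.Sp) (𝓝 (S.π x)) :=
    S.cont_π.continuousAt.tendsto.comp t1
  have tu : Tendsto (fun y => D.u (D.ρ y)) (𝒱 : Filter D.Sp) (𝓝 (D.u x)) :=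
    (D.mod.cont_u hx).tendsto.comp t1
  have tv : Tendsto (fun y => D.v (D.ρ y)) (𝒱 : Filter D.Sp) (𝓝 (D.v x)) :=
    (D.mod.cont_v hx).tendsto.comp t1
  have t₀ : Tendsto (fun y => D.τ₀ (S.π (D.ρ y))) (𝒱 : Filter D.Sp) (𝓝 (D.τ₀ (S.π x))) :=
    (D.an₀ _ hx).continuousAt.tendsto.comp tb
  have t₁ : Tendsto (fun y => D.τ₁ (S.π (D.ρ y))) (𝒱 : Filter D.Sp) (𝓝 (D.τ₁ (S.π x))) :=
    (D.an₁ _ hx).continuousAt.tendsto.comp tb
  refine ⟨hx, fun ha => ?_, fun ha => ?_⟩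
  · have tf : Tendsto (fun y => fv (D.a y)) (𝒱 : Filter D.Sp) (𝓝 (fv a₀)) :=
      (cont_fv ha).tendsto.comp t2
    have ev : ∀ᶠ y in (𝒱 : Filter D.Sp), D.a y ≠ ∞ := t2.eventually (isOpen_fin.mem_nhds ha)
    constructor
    · refine tendsto_nhds_unique tu ((t₀.mul tf).congr' ?_)
      filter_upwards [ev] with y hy
      exact ((rel y).1 hy).1.symm
    · refine tendsto_nhds_unique ((tf.mul tv).congr' ?_) t₁
      filter_upwards [ev] with y hy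
      exact ((rel y).1 hy).2
  · have tf : Tendsto (fun y => iv (D.a y)) (𝒱 : Filter D.Sp) (𝓝 (iv a₀)) :=
      (cont_iv ha).tendsto.comp t2
    have ev : ∀ᶠ y in (𝒱 : Filter D.Sp), D.a y ≠ oz := t2.eventually (isOpen_inv.mem_nhds ha)
    constructor
    · refine tendsto_nhds_unique ((tu.mul tf).congr' ?_) t₀
      filter_upwards [ev] with y hy
      exact ((rel y).2 hy).1
    · refine tendsto_nhds_unique tv ((t₁.mul tf).congr' ?_)
      filter_upwards [ev] with y hy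
      exact ((rel y).2 hy).2.symm

theorem proper_ρ (𝒱 : Ultrafilter D.Sp) (x : S.X) (hx : x ∈ D.U) (h : map D.ρ 𝒱 ≤ 𝓝 x) :
    ∃ y, (𝒱 : Filter D.Sp) ≤ 𝓝 y := by
  obtain ⟨a₀, -, ha⟩ := isCompact_univ.ultrafilter_le_nhds (𝒱.map D.a) (by simp)
  have ha' : map D.a 𝒱 ≤ 𝓝 a₀ := ha
  have hP := closed_P hx h ha'
  refine ⟨⟨(x, a₀), hP⟩, ?_⟩
  have e : 𝓝 (⟨(x, a₀), hP⟩ : D.Sp) = comap Subtype.val (𝓝 (x, a₀)) :=
    Topology.IsInducing.subtypeVal.nhds_eq_comap _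
  rw [e, nhds_prod_eq, ← Filter.map_le_iff_le_comap]
  have t1 : Tendsto D.ρ (𝒱 : Filter D.Sp) (𝓝 x) := h
  have t2 : Tendsto D.a (𝒱 : Filter D.Sp) (𝓝 a₀) := ha'
  exact t1.prodMk t2

variable (D) in
/-- **M3** -/
def modif : Modif S D.node where
  Z := D.Z
  N := D.U
  ρ := D.ρ
  closed := D.cl
  opn := D.mod.isOpen
  sub := fun _ hx => hx.1
  cont := cρ
  maps := mem
  hπ := fun _ => rfl
  hpull := pull
  proper := proper_ρ
  inj := fun _ hy _ _ e => inj_ρ hy e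
  surj := fun x hx _ => surj x hx
  nhds := nhds_ρ
  hhol := hhol_ρ

end NodeData

end Vale.Agent.P273.H469
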