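import Vale.Agent.P273.H948.Moves
import Vale.Agent.P273.H469.Sec

/-!
P273, insertion of marks: existence of the data of a move after shrinking the base.
-/

noncomputable section

open Set Filter Topology OnePoint

namespace Vale.Agent.P273.H469

open Vale.Agent.P273.H948

variable {m : ℕ}

/-- restriction of a coordinate to an open subspace -/
theorem IsCoord.preimage {X : Type} [TopologicalSpace X] {π : X → Fin m → ℂ}
    {hol : X → (X → ℂ) → Prop} {U : Set X} {ξ : X → ℂ} {Y : Type} [TopologicalSpace Y]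
    {πY : Y → Fin m → ℂ} {holY : Y → (Y → ℂ) → Prop} {ι : Y → X} (hι : IsOpenEmbedding ι)
    (hπ : ∀ x, π (ι x) = πY x)
    (hh : ∀ y g, holY y g ↔ ∃ g' , hol (ι y) g' ∧ g =ᶠ[𝓝 y] g' ∘ ι) (h : IsCoord π hol U ξ) :
    IsCoord πY holY (ι ⁻¹' U) (ξ ∘ ι) := by
  have eE : ∀ y, (πY y, (ξ ∘ ι) y) = (π (ι y), ξ (ι y)) := by
    intro x; simp only [hπ, Function.comp]
  have eE' : (fun y => (πY y, (ξ ∘ ι) y)) = (fun x => (π x, ξ x)) ∘ ι := funext eE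
  refine ⟨h.isOpen.preimage hι.continuous, ?_, ?_, ?_⟩
  · intro x hx y hy hxy
    have hxy' : (πY x, (ξ ∘ ι) x) = (πY y, (ξ ∘ ι) y) := hxy
    rw [eE, eE] at hxy'
    exact hι.injective (h.inj hx hy hxy')
  · intro y hy
    rw [eE', ← Filter.map_map, hι.map_nhds_eq, h.nhds _ hy, eE]
  · intro y hy g
    rw [hh]
    constructor
    · rintro ⟨g', hg', e⟩
      obtain ⟨k, hk, hk'⟩ := (h.hol _ hy g').1 hg'
      refine ⟨k, ?_, e.trans ?_⟩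
      · change AnalyticAt ℂ k (πY y, (ξ ∘ ι) y)
        rw [eE]; exact hk
      · rw [eE']
        exact (hι.continuous.tendsto y).eventually hk'
    · rintro ⟨k, hk, hk'⟩
      change AnalyticAt ℂ k (πY y, (ξ ∘ ι) y) at hk
      rw [eE] at hk
      rw [eE'] at hk'
      exact ⟨k ∘ (fun x => (π x, ξ x)), (h.hol _ hy _).2 ⟨k, hk, EventuallyEq.rfl⟩, hk'⟩

/-- the inclusion of the family over the smaller base, with explicit arguments -/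
abbrev pinc (F : PFam m) (B' : Set (Fin m → ℂ)) (hB' : IsOpen B') (hB : B' ⊆ F.B) :
    (F.shrink B' hB' hB).S.X → F.S.X := F.inc

/-- the node chart over a smaller base -/
theorem pmodel {F : PFam m} {U : Set F.S.X} {u v : F.S.X → ℂ} {t : (Fin m → ℂ) → ℂ}
    (h : IsModel F.S.π F.S.hol U u v t) {B' : Set (Fin m → ℂ)} {hB' : IsOpen B'}
    {hB : B' ⊆ F.B} :
    IsModel (F.shrink B' hB' hB).S.π (F.shrink B' hB' hB).S.hol (F.inc ⁻¹' U) (u ∘ F.inc)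
      (v ∘ F.inc) t :=
  h.preimage PFam.inc_emb PFam.inc_π PFam.inc_hol

/-- the smooth chart over a smaller base -/
theorem pcoord {F : PFam m} {U : Set F.S.X} {ξ : F.S.X → ℂ} (h : IsCoord F.S.π F.S.hol U ξ)
    {B' : Set (Fin m → ℂ)} {hB' : IsOpen B'} {hB : B' ⊆ F.B} :
    IsCoord (F.shrink B' hB' hB).S.π (F.shrink B' hB' hB).S.hol (F.inc ⁻¹' U) (ξ ∘ F.inc) :=
  IsCoord.preimage PFam.inc_emb PFam.inc_π PFam.inc_hol h

section sec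

variable {S : Surf m} {B : Set (Fin m → ℂ)} {s s' : (Fin m → ℂ) → S.X} {c : Fin m → ℂ}

theorem sec_mem (hs : IsSec S B s) (hc : c ∈ B) {U : Set S.X} (hU : IsOpen U) (h : s c ∈ U) :
    ∀ᶠ b in 𝓝 c, s b ∈ U := (hs c hc).2.1 (hU.mem_nhds h)

theorem sec_ne (hs : IsSec S B s) (hs' : IsSec S B s') (hc : c ∈ B) (h : s c ≠ s' c) :
    ∀ᶠ b in 𝓝 c, s b ≠ s' b :=
  ((hs c hc).2.1.prodMk (hs' c hc).2.1).eventually
    (isClosed_diagonal.isOpen_compl.mem_nhds (x := (s c, s' c)) h)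

end sec

variable {X₀ : Surf m} {L : Type} {P : L → (Fin m → ℂ) → X₀.X} {A : Set L}

/-- The data of the insertion at a node exist over all small neighbourhoods. -/
theorem exists_nodeMove [Finite L] (σ : State X₀ P A) {c : Fin m → ℂ} (hc : c ∈ σ.F.B) {j : L}
    {U : Set σ.F.S.X} {u v : σ.F.S.X → ℂ} {t : (Fin m → ℂ) → ℂ}
    (mod : IsModel σ.F.S.π σ.F.S.hol U u v t) (hu : u (σ.s j c) = 0)
    (hv : v (σ.s j c) = 0) {K : Set L} (jK : j ∈ K) (KA : ∀ k ∈ K, k ∉ A)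
    (hKU : ∀ k ∈ K, σ.s k c ∈ U) (hK' : ∀ k ∉ K, σ.s k c ≠ σ.s j c)
    {α : L → (Fin m → ℂ) → ℂ} (αj : ∀ b, α j b = 1) (α_an : ∀ k ∈ K, AnalyticAt ℂ (α k) c)
    (rel_u : ∀ k ∈ K, ∀ᶠ b in 𝓝 c, u (σ.s k b) = u (σ.s j b) * α k b)
    (rel_v : ∀ k ∈ K, ∀ᶠ b in 𝓝 c, α k b * v (σ.s k b) = v (σ.s j b))
    (node : ∀ x ∈ U, u x = 0 → v x = 0 → ¬ X₀.SmoothAt (σ.r x)) :
    ∃ B₀ ∈ 𝓝 c, ∀ (B' : Set (Fin m → ℂ)) (hB' : IsOpen B') (hB : B' ⊆ σ.F.B), B' ⊆ B₀ → c ∈ B' →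
      ∀ x₀, ∃ N : NodeMove (σ.shrink B' hB' hB x₀) j, N.c = c ∧ N.K = K ∧ N.α = α ∧
        N.D.U = pinc σ.F B' hB' hB ⁻¹' U ∧ N.D.u = u ∘ pinc σ.F B' hB' hB ∧
        N.D.v = v ∘ pinc σ.F B' hB' hB ∧ N.D.t = t ∧
        N.D.τ₀ = (fun b => u (σ.s j b)) ∧ N.D.τ₁ = fun b => v (σ.s j b) := by
  have h1 : ∀ᶠ b in 𝓝 c, ∀ k ∈ K, AnalyticAt ℂ (α k) b ∧ σ.s k b ∈ U ∧
      u (σ.s k b) = u (σ.s j b) * α k b ∧ α k b * v (σ.s k b) = v (σ.s j b) := by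
    rw [Filter.eventually_all]
    intro k
    by_cases hk : k ∈ K
    · filter_upwards [(α_an k hk).eventually_analyticAt,
        sec_mem (σ.sec k) hc mod.isOpen (hKU k hk), rel_u k hk, rel_v k hk]
        with b e1 e2 e3 e4 _
      exact ⟨e1, e2, e3, e4⟩
    · exact Eventually.of_forall fun b hk' => absurd hk' hk
  have h2 : ∀ᶠ b in 𝓝 c, ∀ k, k ∉ K → σ.s k b ≠ σ.s j b := by
    rw [Filter.eventually_all]
    intro k
    by_cases hk : k ∈ K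
    · exact Eventually.of_forall fun b hk' => absurd hk hk'
    · filter_upwards [sec_ne (σ.sec k) (σ.sec j) hc (hK' k hk)] with b e _
      exact e
  refine ⟨{b | (∀ k ∈ K, AnalyticAt ℂ (α k) b ∧ σ.s k b ∈ U ∧
      u (σ.s k b) = u (σ.s j b) * α k b ∧ α k b * v (σ.s k b) = v (σ.s j b)) ∧
      ∀ k, k ∉ K → σ.s k b ≠ σ.s j b}, h1.and h2, ?_⟩
  intro B' hB' hB hB₀ hcB' x₀
  have hπ : ∀ x : (σ.F.shrink B' hB' hB).S.X, (σ.F.shrink B' hB' hB).S.π x ∈ B' :=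
    (σ.F.shrink B' hB' hB).mem
  have e : ∀ k, ∀ b ∈ B', σ.F.inc (σ.F.rsec (hB' := hB') (hB := hB) x₀ (σ.s k) b) = σ.s k b :=
    fun k b hb => PFam.inc_rsec (σ.sec k) hb
  have au : ∀ b ∈ B', AnalyticAt ℂ (fun b => u (σ.s j b)) b := fun b hb =>
    (σ.sec j b (hB hb)).2.2 u (mod.hol_u ((hB₀ hb).1 j jK).2.1)
  have av : ∀ b ∈ B', AnalyticAt ℂ (fun b => v (σ.s j b)) b := fun b hb =>
    (σ.sec j b (hB hb)).2.2 v (mod.hol_v ((hB₀ hb).1 j jK).2.1)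
  have em : ∀ x : (σ.F.shrink B' hB' hB).S.X, u (σ.s j ((σ.F.shrink B' hB' hB).S.π x)) = 0 →
      v (σ.s j ((σ.F.shrink B' hB' hB).S.π x)) = 0 → ∃ x' ∈ σ.F.inc ⁻¹' U,
      Emap (σ.F.shrink B' hB' hB).S.π (u ∘ σ.F.inc) (v ∘ σ.F.inc) x' =
        ((σ.F.shrink B' hB' hB).S.π x, 0, 0) := by
    intro x h3 h4
    refine ⟨σ.F.rsec (hB' := hB') (hB := hB) x₀ (σ.s j) ((σ.F.shrink B' hB' hB).S.π x), ?_, ?_⟩
    · change σ.F.inc _ ∈ U
      rw [e j _ (hπ x)]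
      exact ((hB₀ (hπ x)).1 j jK).2.1
    · simp only [Emap, Function.comp]
      rw [← PFam.inc_π, e j _ (hπ x), h3, h4, (σ.sec j _ (hB (hπ x))).1]
  let D : NodeData (σ.F.shrink B' hB' hB).S :=
    { U := σ.F.inc ⁻¹' U
      u := u ∘ σ.F.inc
      v := v ∘ σ.F.inc
      t := t
      τ₀ := fun b => u (σ.s j b)
      τ₁ := fun b => v (σ.s j b)
      mod := pmodel mod
      an₀ := fun x _ => au _ (hπ x)
      an₁ := fun x _ => av _ (hπ x)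
      fac := fun x _ => by
        filter_upwards [hB'.mem_nhds (hπ x)] with b hb
        have h3 := mod.eqn _ ((hB₀ hb).1 j jK).2.1
        rw [(σ.sec j b (hB hb)).1] at h3
        exact h3.symm
      cl := closed_node (pmodel mod) (fun x => (au _ (hπ x)).continuousAt)
        (fun x => (av _ (hπ x)).continuousAt) em }
  refine ⟨{ D := D, c := c, K := K, α := α, mem_c := hcB', jK := jK, KA := KA, α_j := αj,
            α_an := ?_, mem := ?_, rel_u := ?_, rel_v := ?_, zero₀ := hu, zero₁ := hv,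
            node := ?_, off := ?_ }, rfl, rfl, rfl, rfl, rfl, rfl, rfl, rfl, rfl⟩
  · intro k hk b hb
    exact ((hB₀ hb).1 k hk).1
  · intro k hk b hb
    change σ.F.inc (σ.F.rsec x₀ (σ.s k) b) ∈ U
    rw [e k b hb]
    exact ((hB₀ hb).1 k hk).2.1
  · intro k hk b hb
    change u (σ.F.inc (σ.F.rsec x₀ (σ.s k) b)) = u (σ.s j b) * α k b
    rw [e k b hb]
    exact ((hB₀ hb).1 k hk).2.2.1
  · intro k hk b hb
    change α k b * v (σ.F.inc (σ.F.rsec x₀ (σ.s k) b)) = v (σ.s j b)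
    rw [e k b hb]
    exact ((hB₀ hb).1 k hk).2.2.2
  · intro x hx h3 h4
    exact node (σ.F.inc x) hx h3 h4
  · intro k hk b hb h3
    have h4 := congrArg (pinc σ.F B' hB' hB) h3
    change σ.F.inc (σ.F.rsec x₀ (σ.s k) b) = σ.F.inc (σ.F.rsec x₀ (σ.s j) b) at h4
    rw [e k b hb, e j b hb] at h4
    exact (hB₀ hb).2 k hk h4

/-- a smooth coordinate at a smooth point -/
theorem exists_coord {S : Surf m} {x : S.X} (h : S.SmoothAt x) :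
    ∃ U ξ, x ∈ U ∧ IsCoord S.π S.hol U ξ := by
  obtain ⟨U, u, v, t, hx, mod, h0 | h0⟩ := h
  · exact ⟨{y | y ∈ U ∧ u y ≠ 0}, u, ⟨hx, h0⟩, coord_u mod⟩
  · exact ⟨{y | y ∈ U ∧ v y ≠ 0}, v, ⟨hx, h0⟩, coord_v mod⟩

/-- The data of the insertion at an inserted mark exist over all small neighbourhoods. -/
theorem exists_bubMove [Finite L] (σ : State X₀ P A) {c : Fin m → ℂ} (hc : c ∈ σ.F.B) {i j : L}
    (iA : i ∈ A) (jA : j ∉ A) (e : σ.s i c = σ.s j c)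
    (off : ∀ k, k ≠ i → k ≠ j → σ.s k c ≠ σ.s i c) :
    ∃ B₀ ∈ 𝓝 c, ∀ (B' : Set (Fin m → ℂ)) (hB' : IsOpen B') (hB : B' ⊆ σ.F.B), B' ⊆ B₀ → c ∈ B' →
      ∀ x₀, ∃ N : BubMove (σ.shrink B' hB' hB x₀) i j, N.c = c := by
  obtain ⟨U, ξ, hU, co⟩ := exists_coord (σ.smooth i iA c hc)
  have h1 : ∀ᶠ b in 𝓝 c, σ.s i b ∈ U := sec_mem (σ.sec i) hc co.isOpen hU
  have h2 : ∀ᶠ b in 𝓝 c, σ.s j b ∈ U := sec_mem (σ.sec j) hc co.isOpen (by rw [← e]; exact hU)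
  have h3 : ∀ᶠ b in 𝓝 c, ∀ k, k ≠ i → k ≠ j → σ.s k b ≠ σ.s i b ∧ σ.s k b ≠ σ.s j b := by
    rw [Filter.eventually_all]
    intro k
    by_cases hk : k ≠ i ∧ k ≠ j
    · filter_upwards [sec_ne (σ.sec k) (σ.sec i) hc (off k hk.1 hk.2),
        sec_ne (σ.sec k) (σ.sec j) hc (by rw [← e]; exact off k hk.1 hk.2)] with b e1 e2 _ _
      exact ⟨e1, e2⟩
    · exact Eventually.of_forall fun b h4 h5 => absurd ⟨h4, h5⟩ hk
  refine ⟨{b | σ.s i b ∈ U ∧ σ.s j b ∈ U ∧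
    ∀ k, k ≠ i → k ≠ j → σ.s k b ≠ σ.s i b ∧ σ.s k b ≠ σ.s j b}, h1.and (h2.and h3), ?_⟩
  intro B' hB' hB hB₀ hcB' x₀
  have hπ : ∀ x : (σ.F.shrink B' hB' hB).S.X, (σ.F.shrink B' hB' hB).S.π x ∈ B' :=
    (σ.F.shrink B' hB' hB).mem
  have e' : ∀ k, ∀ b ∈ B', σ.F.inc (σ.F.rsec (hB' := hB') (hB := hB) x₀ (σ.s k) b) = σ.s k b :=
    fun k b hb => PFam.inc_rsec (σ.sec k) hb
  have ai : ∀ b ∈ B', AnalyticAt ℂ (fun b => ξ (σ.s i b)) b := fun b hb =>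
    (σ.sec i b (hB hb)).2.2 ξ (co.hol_ξ (hB₀ hb).1)
  have aj : ∀ b ∈ B', AnalyticAt ℂ (fun b => ξ (σ.s j b)) b := fun b hb =>
    (σ.sec j b (hB hb)).2.2 ξ (co.hol_ξ (hB₀ hb).2.1)
  have co' : IsCoord (σ.F.shrink B' hB' hB).S.π (σ.F.shrink B' hB' hB).S.hol (σ.F.inc ⁻¹' U)
      (fun x => (ξ ∘ σ.F.inc) x - ξ (σ.s i ((σ.F.shrink B' hB' hB).S.π x))) :=
    (pcoord co).shift (f := fun b => ξ (σ.s i b)) fun x _ => ai _ (hπ x)
  let D : BubData (σ.F.shrink B' hB' hB).S :=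
    { U := σ.F.inc ⁻¹' U
      ξ := fun x => (ξ ∘ σ.F.inc) x - ξ (σ.s i ((σ.F.shrink B' hB' hB).S.π x))
      t := fun b => ξ (σ.s j b) - ξ (σ.s i b)
      co := co'
      an := fun x _ => (aj _ (hπ x)).sub (ai _ (hπ x))
      cl := closed_bub co' (fun x => ((aj _ (hπ x)).sub (ai _ (hπ x))).continuousAt) fun x h4 => by
        refine ⟨σ.F.rsec (hB' := hB') (hB := hB) x₀ (σ.s i) ((σ.F.shrink B' hB' hB).S.π x),
          ?_, ?_, ?_⟩
        · change σ.F.inc _ ∈ U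
          rw [e' i _ (hπ x)]
          exact (hB₀ (hπ x)).1
        · rw [← PFam.inc_π, e' i _ (hπ x)]
          exact (σ.sec i _ (hB (hπ x))).1
        · rw [Function.comp_apply, ← PFam.inc_π (F := σ.F) (σ.F.rsec x₀ (σ.s i) _), e' i _ (hπ x),
            (σ.sec i _ (hB (hπ x))).1, sub_self] }
  have es : ∀ k, ∀ b ∈ B', D.ξ ((σ.shrink B' hB' hB x₀).s k b) = ξ (σ.s k b) - ξ (σ.s i b) := by
    intro k b hb
    change ξ (σ.F.inc (σ.F.rsec x₀ (σ.s k) b)) -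
      ξ (σ.s i (σ.F.S.π (σ.F.inc (σ.F.rsec x₀ (σ.s k) b)))) = _
    rw [e' k b hb, (σ.sec k b (hB hb)).1]
  refine ⟨{ D := D, c := c, mem_c := hcB', iA := iA, jA := jA, mem_i := ?_, mem_j := ?_,
            ξ_i := ?_, ξ_j := ?_, zero := ?_, off := ?_ }, rfl⟩
  · intro b hb
    change σ.F.inc (σ.F.rsec x₀ (σ.s i) b) ∈ U
    rw [e' i b hb]; exact (hB₀ hb).1
  · intro b hb
    change σ.F.inc (σ.F.rsec x₀ (σ.s j) b) ∈ U
    rw [e' j b hb]; exact (hB₀ hb).2.1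
  · intro b hb
    rw [es i b hb, sub_self]
  · intro b hb
    exact es j b hb
  · change ξ (σ.s j c) - ξ (σ.s i c) = 0
    rw [e, sub_self]
  · intro k hki hkj b hb
    constructor
    · intro h4
      have h5 := congrArg (pinc σ.F B' hB' hB) h4
      change σ.F.inc (σ.F.rsec x₀ (σ.s k) b) = σ.F.inc (σ.F.rsec x₀ (σ.s i) b) at h5
      rw [e' k b hb, e' i b hb] at h5
      exact ((hB₀ hb).2.2 k hki hkj).1 h5
    · intro h4
      have h5 := congrArg (pinc σ.F B' hB' hB) h4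
      change σ.F.inc (σ.F.rsec x₀ (σ.s k) b) = σ.F.inc (σ.F.rsec x₀ (σ.s j) b) at h5
      rw [e' k b hb, e' j b hb] at h5
      exact ((hB₀ hb).2.2 k hki hkj).2 h5

end Vale.Agent.P273.H469
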