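import Vale.Agent.P273.H948.Inv
import Vale.Agent.P273.H469.ExMove

/-!
P273, insertion of marks: existence of the data of a move, in the forms used by the inductions.
-/

noncomputable section

open Set Filter Topology OnePoint

namespace Vale.Agent.P273.H469

open Vale.Agent.P273.H948

variable {m : ℕ} {X₀ : Surf m} {L : Type} {P : L → (Fin m → ℂ) → X₀.X} {A : Set L}

theorem exists_open_nhds {B B₀ : Set (Fin m → ℂ)} (hB : IsOpen B) {c : Fin m → ℂ} (hc : c ∈ B)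
    (h : B₀ ∈ 𝓝 c) : ∃ B', IsOpen B' ∧ B' ⊆ B ∧ B' ⊆ B₀ ∧ c ∈ B' :=
  ⟨B ∩ interior B₀, hB.inter isOpen_interior, inter_subset_left,
    inter_subset_right.trans interior_subset, hc, mem_interior_iff_mem_nhds.2 h⟩

/-- a point of the family over a smaller base -/
theorem exists_pt {F : PFam m} {B' : Set (Fin m → ℂ)} (hB' : IsOpen B') (hB : B' ⊆ F.B)
    {c : Fin m → ℂ} (hc : c ∈ B') : Nonempty (F.shrink B' hB' hB).S.X := by
  obtain ⟨x, -⟩ := ((F.shrink B' hB' hB).conn c hc).nonempty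
  exact ⟨x⟩

/-- insertion of the label `j` at a node at which exactly the labels of `K` sit -/
theorem exists_nodeMove_at [Finite L] (σ : State X₀ P A) {c : Fin m → ℂ} (hc : c ∈ σ.F.B) {j : L}
    {U : Set σ.F.S.X} {u v : σ.F.S.X → ℂ} {t : (Fin m → ℂ) → ℂ}
    (mod : IsModel σ.F.S.π σ.F.S.hol U u v t) (hU : σ.s j c ∈ U) (hu : u (σ.s j c) = 0)
    (hv : v (σ.s j c) = 0) (node : ∀ x ∈ U, u x = 0 → v x = 0 → ¬ X₀.SmoothAt (σ.r x))
    (jA : j ∉ A) (hA : ∀ k ∈ A, σ.s k c ≠ σ.s j c) {μ : L → (Fin m → ℂ) → ℂ}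
    (hk : ∀ k, k ≠ j → σ.s k c = σ.s j c → AnalyticAt ℂ (μ k) c ∧ ∀ᶠ b in 𝓝 c,
      u (σ.s k b) = μ k b * u (σ.s j b) ∧ v (σ.s j b) = μ k b * v (σ.s k b)) :
    ∃ (B' : Set (Fin m → ℂ)) (hB' : IsOpen B') (hB : B' ⊆ σ.F.B)
      (x₀ : (σ.F.shrink B' hB' hB).S.X) (N : NodeMove (σ.shrink B' hB' hB x₀) j), c ∈ B' ∧
      N.c = c ∧ N.K = {k | σ.s k c = σ.s j c} ∧ (∀ k, k ≠ j → N.α k = μ k) ∧
      N.D.U = pinc σ.F B' hB' hB ⁻¹' U ∧ N.D.u = u ∘ pinc σ.F B' hB' hB ∧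
      N.D.v = v ∘ pinc σ.F B' hB' hB ∧ N.D.t = t ∧ N.D.τ₀ = (fun b => u (σ.s j b)) ∧
      N.D.τ₁ = fun b => v (σ.s j b) := by
  classical
  obtain ⟨B₀, hB₀, h⟩ := exists_nodeMove σ hc mod hu hv (K := {k | σ.s k c = σ.s j c}) (j := j) rfl
    (fun k hk hkA => hA k hkA hk) (fun k hk => by rw [show σ.s k c = σ.s j c from hk]; exact hU)
    (fun k hk => hk) (α := fun l => if l = j then (fun _ => 1) else μ l)
    (fun b => by simp only [if_true])
    (by
      intro k hk'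
      by_cases hkj : k = j
      · simp only [hkj, if_true]; exact analyticAt_const
      · rw [if_neg hkj]; exact (hk k hkj hk').1)
    (by
      intro k hk'
      by_cases hkj : k = j
      · simp only [hkj, if_true, mul_one]; exact Eventually.of_forall fun _ => trivial
      · rw [if_neg hkj]
        filter_upwards [(hk k hkj hk').2] with b hb
        rw [hb.1, mul_comm])
    (by
      intro k hk'
      by_cases hkj : k = j
      · simp only [hkj, if_true, one_mul]; exact Eventually.of_forall fun _ => trivial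
      · rw [if_neg hkj]
        filter_upwards [(hk k hkj hk').2] with b hb
        exact hb.2.symm) node
  obtain ⟨B', hB', h1, h2, h3⟩ := exists_open_nhds σ.F.openB hc hB₀
  obtain ⟨x₀⟩ := exists_pt hB' h1 h3
  obtain ⟨N, e1, e2, e3, e4⟩ := h B' hB' h1 h2 h3 x₀
  refine ⟨B', hB', h1, x₀, N, h3, e1, e2, ?_, e4⟩
  intro k hkj
  rw [e3]; exact if_neg hkj

/-- insertion of the first label of a neck, if it is at the node -/
theorem exists_nodeMove_neck [Finite L] (σ : State X₀ P A) {c : Fin m → ℂ} (hc : c ∈ σ.F.B)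
    {ty : L → Bool} {μ : L → L → (Fin m → ℂ) → ℂ} {j : L} {tl : List L}
    {U : Set σ.F.S.X} {u v : σ.F.S.X → ℂ} {t : (Fin m → ℂ) → ℂ}
    (h : IsNeck σ c μ (j :: tl) U u v t) (hr : Ratios c ty μ (j :: tl))
    (hA : ∀ k ∈ j :: tl, k ∉ A) (hn : u (σ.s j c) = 0 ∧ v (σ.s j c) = 0) :
    ∃ (B' : Set (Fin m → ℂ)) (hB' : IsOpen B') (hB : B' ⊆ σ.F.B)
      (x₀ : (σ.F.shrink B' hB' hB).S.X) (N : NodeMove (σ.shrink B' hB' hB x₀) j), c ∈ B' ∧
      N.c = c ∧ N.K = {k | k ∈ j :: tl} ∧ (∀ k ∈ tl, N.α k = μ j k) ∧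
      N.D.U = pinc σ.F B' hB' hB ⁻¹' U ∧ N.D.u = u ∘ pinc σ.F B' hB' hB ∧
      N.D.v = v ∘ pinc σ.F B' hB' hB ∧ N.D.t = t ∧ N.D.τ₀ = (fun b => u (σ.s j b)) ∧
      N.D.τ₁ = fun b => v (σ.s j b) := by
  classical
  have hjt : j ∉ tl := (List.nodup_cons.1 hr.nodup).1
  have hne : ∀ k ∈ tl, k ≠ j := fun k hk e => hjt (e ▸ hk)
  obtain ⟨B₀, hB₀, h⟩ := exists_nodeMove σ hc h.mod hn.1 hn.2 (K := {k | k ∈ j :: tl}) (j := j)
    (List.mem_cons_self ..) hA h.mem
    (fun k hk e => h.off k hk (by rw [e]; exact h.mem j (List.mem_cons_self ..))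
      (by rw [e]; exact hn)) (α := fun l => if l = j then (fun _ => 1) else μ j l)
    (fun b => by simp only [if_true])
    (by
      intro k hk'
      by_cases hkj : k = j
      · simp only [hkj, if_true]; exact analyticAt_const
      · rw [if_neg hkj]
        exact (List.pairwise_cons.1 hr.an).1 k ((List.mem_cons.1 hk').resolve_left hkj))
    (by
      intro k hk'
      by_cases hkj : k = j
      · simp only [hkj, if_true, mul_one]; exact Eventually.of_forall fun _ => trivial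
      · rw [if_neg hkj]
        filter_upwards [(List.pairwise_cons.1 h.rel).1 k ((List.mem_cons.1 hk').resolve_left hkj)]
          with b hb
        rw [hb.1, mul_comm])
    (by
      intro k hk'
      by_cases hkj : k = j
      · simp only [hkj, if_true, one_mul]; exact Eventually.of_forall fun _ => trivial
      · rw [if_neg hkj]
        filter_upwards [(List.pairwise_cons.1 h.rel).1 k ((List.mem_cons.1 hk').resolve_left hkj)]
          with b hb
        exact hb.2.symm) h.node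
  obtain ⟨B', hB', h1, h2, h3⟩ := exists_open_nhds σ.F.openB hc hB₀
  obtain ⟨x₀⟩ := exists_pt hB' h1 h3
  obtain ⟨N, e1, e2, e3, e4⟩ := h B' hB' h1 h2 h3 x₀
  refine ⟨B', hB', h1, x₀, N, h3, e1, e2, ?_, e4⟩
  intro k hkt
  rw [e3]; exact if_neg (hne k hkt)

/-- insertion at an inserted mark -/
theorem exists_bubMove_at [Finite L] (σ : State X₀ P A) {c : Fin m → ℂ} (hc : c ∈ σ.F.B) {i j : L}
    (iA : i ∈ A) (jA : j ∉ A) (e : σ.s i c = σ.s j c)
    (off : ∀ k, k ≠ i → k ≠ j → σ.s k c ≠ σ.s j c) :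
    ∃ (B' : Set (Fin m → ℂ)) (hB' : IsOpen B') (hB : B' ⊆ σ.F.B)
      (x₀ : (σ.F.shrink B' hB' hB).S.X) (N : BubMove (σ.shrink B' hB' hB x₀) i j), c ∈ B' ∧
      N.c = c := by
  obtain ⟨B₀, hB₀, h⟩ := exists_bubMove σ hc iA jA e (fun k h1 h2 => by rw [e]; exact off k h1 h2)
  obtain ⟨B', hB', h1, h2, h3⟩ := exists_open_nhds σ.F.openB hc hB₀
  obtain ⟨x₀⟩ := exists_pt hB' h1 h3
  obtain ⟨N, e1⟩ := h B' hB' h1 h2 h3 x₀
  exact ⟨B', hB', h1, x₀, N, h3, e1⟩

end Vale.Agent.P273.H469
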