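import Vale.Agent.P273.H948.Surf

/-!
P273, insertion of marks: the projective line `OnePoint ℂ` (value, inverse value, inversion), germs
of analytic functions of a coordinate map, smooth coordinates `IsCoord` of a nodal surface.
-/

noncomputable section

open Set Filter Topology OnePoint

namespace Vale.Agent.P273.H469

open Vale.Agent.P273.H948

/-! ### The projective line -/

/-- the value of a finite point (`0` at infinity) -/
def fv (a : OnePoint ℂ) : ℂ := a.elim 0 fun z => z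

/-- the inverse of the value (`0` at infinity) -/
def iv (a : OnePoint ℂ) : ℂ := a.elim 0 fun z => z⁻¹

/-- the point with the given inverse value -/
def oi (c : ℂ) : OnePoint ℂ := if c = 0 then ∞ else ((c⁻¹ : ℂ) : OnePoint ℂ)

/-- the origin -/
def oz : OnePoint ℂ := ((0 : ℂ) : OnePoint ℂ)

/-- the point one -/
def oo : OnePoint ℂ := ((1 : ℂ) : OnePoint ℂ)

@[simp] theorem fv_coe (z : ℂ) : fv (z : OnePoint ℂ) = z := rfl
@[simp] theorem fv_infty : fv (∞ : OnePoint ℂ) = 0 := rfl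
@[simp] theorem iv_coe (z : ℂ) : iv (z : OnePoint ℂ) = z⁻¹ := rfl
@[simp] theorem iv_infty : iv (∞ : OnePoint ℂ) = 0 := rfl
@[simp] theorem oi_zero : oi 0 = ∞ := if_pos rfl
theorem oi_of_ne {c : ℂ} (h : c ≠ 0) : oi c = ((c⁻¹ : ℂ) : OnePoint ℂ) := if_neg h

theorem coe_ne_infty (z : ℂ) : (z : OnePoint ℂ) ≠ ∞ := OnePoint.coe_ne_infty z

theorem coe_fv {a : OnePoint ℂ} (h : a ≠ ∞) : (fv a : OnePoint ℂ) = a := by
  induction a using OnePoint.rec with
  | infty => exact absurd rfl h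
  | coe z => rfl

theorem oi_iv {a : OnePoint ℂ} (h : a ≠ oz) : oi (iv a) = a := by
  induction a using OnePoint.rec with
  | infty => simp
  | coe z =>
    have hz : z ≠ 0 := by rintro rfl; exact h rfl
    rw [iv_coe, oi_of_ne (inv_ne_zero hz), inv_inv]

theorem iv_oi (c : ℂ) : iv (oi c) = c := by
  by_cases h : c = 0
  · subst h; simp
  · rw [oi_of_ne h, iv_coe, inv_inv]

theorem oi_ne_oz (c : ℂ) : oi c ≠ oz := by
  by_cases h : c = 0
  · subst h; rw [oi_zero]; exact (coe_ne_infty 0).symm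
  · rw [oi_of_ne h]
    intro e
    exact inv_ne_zero h (OnePoint.coe_injective e)

theorem coe_ne_oz {z : ℂ} : (z : OnePoint ℂ) ≠ oz ↔ z ≠ 0 := by
  unfold oz
  rw [Ne, OnePoint.coe_eq_coe]

theorem iv_eq_inv {a : OnePoint ℂ} : iv a = (fv a)⁻¹ := by
  induction a using OnePoint.rec with
  | infty => simp
  | coe z => rfl

theorem fv_ne_zero {a : OnePoint ℂ} (h : a ≠ ∞) (h0 : a ≠ oz) : fv a ≠ 0 := by
  rw [← coe_fv h, coe_ne_oz] at h0
  exact h0

theorem iv_ne_zero {a : OnePoint ℂ} (h : a ≠ ∞) (h0 : a ≠ oz) : iv a ≠ 0 := by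
  rw [iv_eq_inv]; exact inv_ne_zero (fv_ne_zero h h0)

theorem isOpen_fin : IsOpen {a : OnePoint ℂ | a ≠ ∞} := isOpen_compl_singleton

theorem isOpen_inv : IsOpen {a : OnePoint ℂ | a ≠ oz} := isOpen_compl_singleton

theorem cont_fv {a : OnePoint ℂ} (h : a ≠ ∞) : ContinuousAt fv a := by
  rw [← coe_fv h, OnePoint.continuousAt_coe]
  exact continuousAt_id

theorem cont_iv {a : OnePoint ℂ} (h : a ≠ oz) : ContinuousAt iv a := by
  induction a using OnePoint.rec with
  | infty =>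
    rw [OnePoint.continuousAt_infty', coclosedCompact_eq_cocompact, ← Metric.cobounded_eq_cocompact]
    exact tendsto_inv₀_cobounded
  | coe z =>
    have hz : z ≠ 0 := by rintro rfl; exact h rfl
    rw [OnePoint.continuousAt_coe]
    exact continuousAt_inv₀ hz

theorem cont_oi : Continuous oi := by
  rw [continuous_iff_continuousAt]
  intro c
  by_cases h : c = 0
  · subst h
    unfold ContinuousAt
    rw [oi_zero]
    have h1 : Tendsto (fun c : ℂ => ((c⁻¹ : ℂ) : OnePoint ℂ)) (𝓝[≠] 0) (𝓝 ∞) := by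
      have h2 : Tendsto (fun z : ℂ => (z : OnePoint ℂ)) (coclosedCompact ℂ) (𝓝 ∞) :=
        OnePoint.tendsto_coe_infty
      rw [coclosedCompact_eq_cocompact, ← Metric.cobounded_eq_cocompact] at h2
      exact h2.comp tendsto_inv₀_nhdsNE_zero
    rw [← nhdsNE_sup_pure, tendsto_sup]
    constructor
    · refine h1.congr' ?_
      filter_upwards [self_mem_nhdsWithin] with c hc
      exact (oi_of_ne hc).symm
    · rw [tendsto_pure_left]
      intro s hs
      rw [oi_zero]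
      exact mem_of_mem_nhds hs
  · have h1 : ContinuousAt (fun c : ℂ => ((c⁻¹ : ℂ) : OnePoint ℂ)) c :=
      OnePoint.continuous_coe.continuousAt.comp (continuousAt_inv₀ h)
    refine h1.congr ?_
    filter_upwards [isOpen_ne.mem_nhds h] with c' hc'
    exact (oi_of_ne hc').symm

theorem cont_coe : Continuous fun z : ℂ => (z : OnePoint ℂ) := OnePoint.continuous_coe

/-! ### Germs -/

/-- `g` is an analytic function of `E` near `y` -/
def Germ {X F : Type} [TopologicalSpace X] [NormedAddCommGroup F] [NormedSpace ℂ F]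
    (E : X → F) (y : X) (g : X → ℂ) : Prop :=
  ∃ h : F → ℂ, AnalyticAt ℂ h (E y) ∧ g =ᶠ[𝓝 y] h ∘ E

section germ

variable {X Y F F' : Type} [TopologicalSpace X] [TopologicalSpace Y]
  [NormedAddCommGroup F] [NormedSpace ℂ F] [NormedAddCommGroup F'] [NormedSpace ℂ F']
  {E : X → F} {E' : X → F'} {y : X} {g g' : X → ℂ}

theorem Germ.congr (h : Germ E y g) (e : g' =ᶠ[𝓝 y] g) : Germ E y g' := by
  obtain ⟨k, hk, hk'⟩ := h
  exact ⟨k, hk, e.trans hk'⟩

/-- change of the coordinate map -/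
theorem Germ.trans {φ : F → F'} (hφ : AnalyticAt ℂ φ (E y)) (e : E' =ᶠ[𝓝 y] φ ∘ E)
    (h : Germ E' y g) : Germ E y g := by
  obtain ⟨k, hk, hk'⟩ := h
  have e0 : E' y = φ (E y) := e.self_of_nhds
  rw [e0] at hk
  refine ⟨k ∘ φ, hk.comp hφ, ?_⟩
  filter_upwards [hk', e] with x h1 h2
  rw [h1, Function.comp_apply, h2]
  rfl

/-- pull back -/
theorem Germ.pull {ρ : Y → X} {z : Y} (hρ : ContinuousAt ρ z) (h : Germ E (ρ z) g) :
    Germ (E ∘ ρ) z (g ∘ ρ) := by
  obtain ⟨k, hk, hk'⟩ := h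
  exact ⟨k, hk, hρ.tendsto.eventually hk'⟩

end germ

/-! ### Smooth coordinates -/

/-- `ξ` is a fibre coordinate of the surface on the open set `U` -/
structure IsCoord {m : ℕ} {X : Type} [TopologicalSpace X] (π : X → Fin m → ℂ)
    (hol : X → (X → ℂ) → Prop) (U : Set X) (ξ : X → ℂ) : Prop where
  isOpen : IsOpen U
  inj : InjOn (fun x => (π x, ξ x)) U
  nhds : ∀ y ∈ U, map (fun x => (π x, ξ x)) (𝓝 y) = 𝓝 (π y, ξ y)
  hol : ∀ y ∈ U, ∀ g : X → ℂ, hol y g ↔ Germ (fun x => (π x, ξ x)) y g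

theorem isModel_hol {m : ℕ} {X : Type} [TopologicalSpace X] {π : X → Fin m → ℂ}
    {hol : X → (X → ℂ) → Prop} {U : Set X} {u v : X → ℂ} {t : (Fin m → ℂ) → ℂ}
    (h : IsModel π hol U u v t) {y : X} (hy : y ∈ U) (g : X → ℂ) :
    hol y g ↔ Germ (Emap π u v) y g := h.hol y hy g

namespace IsCoord

variable {m : ℕ} {X : Type} [TopologicalSpace X] {π : X → Fin m → ℂ}
  {hol : X → (X → ℂ) → Prop} {U : Set X} {ξ : X → ℂ}

theorem mono (h : IsCoord π hol U ξ) {V : Set X} (hV : IsOpen V) (hVU : V ⊆ U) :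
    IsCoord π hol V ξ where
  isOpen := hV
  inj := h.inj.mono hVU
  nhds y hy := h.nhds y (hVU hy)
  hol y hy := h.hol y (hVU hy)

theorem cont (h : IsCoord π hol U ξ) {y : X} (hy : y ∈ U) :
    ContinuousAt (fun x => (π x, ξ x)) y := (h.nhds y hy).le

theorem cont_π (h : IsCoord π hol U ξ) {y : X} (hy : y ∈ U) : ContinuousAt π y :=
  continuousAt_fst.comp (h.cont hy)

theorem cont_ξ (h : IsCoord π hol U ξ) {y : X} (hy : y ∈ U) : ContinuousAt ξ y :=
  continuousAt_snd.comp (h.cont hy)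

theorem hol_ξ (h : IsCoord π hol U ξ) {y : X} (hy : y ∈ U) : hol y ξ :=
  (h.hol y hy ξ).2 ⟨fun p => p.2, analyticAt_snd, EventuallyEq.rfl⟩

theorem hol_congr (h : IsCoord π hol U ξ) {y : X} (hy : y ∈ U) {g g' : X → ℂ}
    (hg : hol y g) (e : g' =ᶠ[𝓝 y] g) : hol y g' :=
  (h.hol y hy g').2 (((h.hol y hy g).1 hg).congr e)

/-- a coordinate gives a model near every point -/
theorem model (h : IsCoord π hol U ξ) {y : X} (hy : y ∈ U) :
    ∃ V u v, y ∈ V ∧ V ⊆ U ∧ IsModel π hol V u v (fun _ => 1) ∧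
      (∀ x, u x = ξ x - (ξ y - 1)) ∧ ∀ x ∈ V, v x = (u x)⁻¹ := by
  have hne : ∀ᶠ x in 𝓝 y, ξ x - (ξ y - 1) ≠ 0 := by
    have h1 : ContinuousAt (fun x => ξ x - (ξ y - 1)) y := (h.cont_ξ hy).sub continuousAt_const
    refine h1.eventually_ne ?_
    simp
  obtain ⟨V0, hV0, hV0o, hyV0⟩ := eventually_nhds_iff.1 hne
  set V := V0 ∩ U with hV
  have hVo : IsOpen V := hV0o.inter h.isOpen
  set u : X → ℂ := fun x => ξ x - (ξ y - 1) with hu
  set v : X → ℂ := fun x => (ξ x - (ξ y - 1))⁻¹ with hv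
  have hun : ∀ x ∈ V, u x ≠ 0 := fun x hx => hV0 x hx.1
  -- the map from the `ξ` chart to the model
  let φ : (Fin m → ℂ) × ℂ → Amb m := fun p => (p.1, p.2 - (ξ y - 1), (p.2 - (ξ y - 1))⁻¹)
  let ψ : Amb m → (Fin m → ℂ) × ℂ := fun p => (p.1, p.2.1 + (ξ y - 1))
  have hφ : ∀ x ∈ V, AnalyticAt ℂ φ (π x, ξ x) := by
    intro x hx
    have h1 : AnalyticAt ℂ (fun p : (Fin m → ℂ) × ℂ => p.2 - (ξ y - 1)) (π x, ξ x) :=
      analyticAt_snd.sub analyticAt_const
    exact AnalyticAt.prod analyticAt_fst (AnalyticAt.prod h1 (h1.inv (hun x hx)))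
  have hψ : ∀ p : Amb m, AnalyticAt ℂ ψ p := by
    intro p
    exact AnalyticAt.prod (an_b p) ((an_u p).add analyticAt_const)
  have eφ : Emap π u v = φ ∘ fun x => (π x, ξ x) := rfl
  have eψ : (fun x => (π x, ξ x)) = ψ ∘ Emap π u v := by
    funext x
    simp only [Function.comp, ψ, Emap, hu, sub_add_cancel]
  refine ⟨V, u, v, ⟨hyV0, hy⟩, inter_subset_right, ?_, fun x => rfl, fun x _ => rfl⟩
  refine ⟨hVo, ?_, ?_, ?_, ?_, ?_⟩
  · intro x hx x' hx' e
    apply h.inj hx.2 hx'.2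
    rw [eψ, Function.comp_apply, Function.comp_apply, e]
  · intro x hx
    exact mul_inv_cancel₀ (hun x hx)
  · intro x _
    exact analyticAt_const
  · intro x hx
    rw [eφ, ← Filter.map_map, h.nhds x hx.2]
    refine le_antisymm ?_ ?_
    · rw [nhdsWithin, le_inf_iff]
      refine ⟨(hφ x hx).continuousAt, ?_⟩
      rw [le_principal_iff]
      have h1 : ∀ᶠ p in 𝓝 (π x, ξ x), p.2 - (ξ y - 1) ≠ 0 :=
        (continuousAt_snd.sub continuousAt_const).eventually_ne (hun x hx)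
      rw [Filter.mem_map]
      filter_upwards [h1] with p hp
      exact mul_inv_cancel₀ hp
    · intro s hs
      rw [Filter.mem_map] at hs
      have h1 : ContinuousAt ψ (φ (π x, ξ x)) := (hψ _).continuousAt
      have h2 : ψ (φ (π x, ξ x)) = (π x, ξ x) := by
        simp only [ψ, φ, sub_add_cancel]
      have h3 : ψ ⁻¹' (φ ⁻¹' s) ∈ 𝓝 (φ (π x, ξ x)) := h1 (by rw [h2]; exact hs)
      have h4 : ∀ᶠ p : Amb m in 𝓝 (φ (π x, ξ x)), p.2.1 ≠ 0 := by
        have : ContinuousAt (fun p : Amb m => p.2.1) (φ (π x, ξ x)) := (an_u _).continuousAt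
        exact this.eventually_ne (hun x hx)
      refine mem_nhdsWithin_iff_exists_mem_nhds_inter.2 ⟨_, Filter.inter_mem h3 h4, ?_⟩
      rintro p ⟨⟨hp1, hp2⟩, hp3⟩
      have hp3' : p.2.1 * p.2.2 = 1 := hp3
      have : φ (ψ p) = p := by
        have e2 : (p.2.1 : ℂ)⁻¹ = p.2.2 := by
          rw [eq_comm]; exact eq_inv_of_mul_eq_one_right hp3'
        simp only [φ, ψ, add_sub_cancel_right, e2]
      rw [← this]
      exact hp1
  · intro x hx g
    rw [h.hol x hx.2]
    constructor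
    · intro hg
      exact hg.trans (hψ _) (by rw [eψ])
    · intro hg
      have hg' : Germ (Emap π u v) x g := hg
      exact hg'.trans (hφ x hx) (by rw [eφ])

/-- shifting a coordinate by a function of the base -/
theorem shift (h : IsCoord π hol U ξ) {f : (Fin m → ℂ) → ℂ} (hf : ∀ y ∈ U, AnalyticAt ℂ f (π y)) :
    IsCoord π hol U fun x => ξ x - f (π x) := by
  let φ : (Fin m → ℂ) × ℂ → (Fin m → ℂ) × ℂ := fun p => (p.1, p.2 - f p.1)
  let ψ : (Fin m → ℂ) × ℂ → (Fin m → ℂ) × ℂ := fun p => (p.1, p.2 + f p.1)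
  have hφψ : ∀ p, φ (ψ p) = p := by intro p; simp only [φ, ψ, add_sub_cancel_right]
  have hψφ : ∀ p, ψ (φ p) = p := by intro p; simp only [φ, ψ, sub_add_cancel]
  have aφ : ∀ p : (Fin m → ℂ) × ℂ, AnalyticAt ℂ f p.1 → AnalyticAt ℂ φ p := by
    intro p hp
    exact AnalyticAt.prod analyticAt_fst (analyticAt_snd.sub (hp.comp analyticAt_fst))
  have aψ : ∀ p : (Fin m → ℂ) × ℂ, AnalyticAt ℂ f p.1 → AnalyticAt ℂ ψ p := by
    intro p hp
    exact AnalyticAt.prod analyticAt_fst (analyticAt_snd.add (hp.comp analyticAt_fst))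
  have eφ : (fun x => (π x, ξ x - f (π x))) = φ ∘ fun x => (π x, ξ x) := rfl
  have eψ : (fun x => (π x, ξ x)) = ψ ∘ fun x => (π x, ξ x - f (π x)) := by
    funext x; simp only [Function.comp, ψ, sub_add_cancel]
  refine ⟨h.isOpen, ?_, ?_, ?_⟩
  · intro x hx x' hx' e
    apply h.inj hx hx'
    have := congrArg ψ e
    simpa only [ψ, sub_add_cancel] using this
  · intro x hx
    rw [eφ, ← Filter.map_map, h.nhds x hx]
    have hfx := hf x hx
    refine le_antisymm (aφ _ hfx).continuousAt ?_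
    intro s hs
    rw [Filter.mem_map] at hs
    have h1 : ContinuousAt ψ (φ (π x, ξ x)) := (aψ _ hfx).continuousAt
    have h3 : ψ ⁻¹' (φ ⁻¹' s) ∈ 𝓝 (φ (π x, ξ x)) := h1 (by rw [hψφ]; exact hs)
    filter_upwards [h3] with p hp
    have hp' : φ (ψ p) ∈ s := hp
    rwa [hφψ] at hp'
  · intro x hx g
    rw [h.hol x hx]
    constructor
    · intro hg
      exact hg.trans (aψ _ (hf x hx)) (by rw [← eψ])
    · intro hg
      exact hg.trans (aφ _ (hf x hx)) (by rw [← eφ])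

end IsCoord

/-! ### Smooth coordinates from models -/

section ofModel

variable {m : ℕ} {X : Type} [TopologicalSpace X] {π : X → Fin m → ℂ}
  {hol : X → (X → ℂ) → Prop} {U : Set X} {u v : X → ℂ} {t : (Fin m → ℂ) → ℂ}

theorem swap_model (h : IsModel π hol U u v t) : IsModel π hol U v u t := by
  let sw : Amb m → Amb m := fun p => (p.1, p.2.2, p.2.1)
  have hsw : ∀ p, sw (sw p) = p := fun p => rfl
  have asw : ∀ p, AnalyticAt ℂ sw p := fun p =>
    AnalyticAt.prod (an_b p) (AnalyticAt.prod (an_v p) (an_u p))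
  have csw : Continuous sw := by
    rw [continuous_iff_continuousAt]; exact fun p => (asw p).continuousAt
  have e1 : Emap π v u = sw ∘ Emap π u v := rfl
  have e2 : Emap π u v = sw ∘ Emap π v u := rfl
  refine ⟨h.isOpen, ?_, ?_, h.an, ?_, ?_⟩
  · intro x hx x' hx' e
    apply h.inj hx hx'
    rw [e2, Function.comp_apply, Function.comp_apply, e]
  · intro y hy
    rw [mul_comm]; exact h.eqn y hy
  · intro y hy
    rw [e1, ← Filter.map_map, h.nhds y hy]
    refine le_antisymm ?_ ?_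
    · rw [nhdsWithin, nhdsWithin, le_inf_iff]
      constructor
      · exact (Filter.map_mono inf_le_left).trans csw.continuousAt
      · rw [le_principal_iff, Filter.mem_map]
        refine mem_inf_of_right ?_
        intro p hp
        have hp' : p.2.1 * p.2.2 = t p.1 := hp
        change p.2.2 * p.2.1 = t p.1
        rw [mul_comm]; exact hp'
    · intro s hs
      rw [Filter.mem_map] at hs
      obtain ⟨W, hW, hWs⟩ := mem_nhdsWithin_iff_exists_mem_nhds_inter.1 hs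
      refine mem_nhdsWithin_iff_exists_mem_nhds_inter.2 ⟨sw ⁻¹' W, ?_, ?_⟩
      · exact csw.continuousAt (by rw [Function.comp_apply, hsw]; exact hW)
      · rintro p ⟨hp1, hp2⟩
        have hp2' : p.2.1 * p.2.2 = t p.1 := hp2
        have h3 : sw p ∈ sw ⁻¹' s := by
          refine hWs ⟨hp1, ?_⟩
          change p.2.2 * p.2.1 = t p.1
          rw [mul_comm]; exact hp2'
        exact h3
  · intro y hy g
    rw [isModel_hol h hy]
    constructor
    · intro hg
      exact hg.trans (asw _) (by rw [← e2])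
    · intro hg
      have hg' : Germ (Emap π v u) y g := hg
      exact hg'.trans (asw _) (by rw [← e1])

theorem coord_u (h : IsModel π hol U u v t) : IsCoord π hol {x | x ∈ U ∧ u x ≠ 0} u := by
  let φ : (Fin m → ℂ) × ℂ → Amb m := fun p => (p.1, p.2, t p.1 / p.2)
  let ψ : Amb m → (Fin m → ℂ) × ℂ := fun p => (p.1, p.2.1)
  have aψ : ∀ p, AnalyticAt ℂ ψ p := fun p => AnalyticAt.prod (an_b p) (an_u p)
  have aφ : ∀ p : (Fin m → ℂ) × ℂ, AnalyticAt ℂ t p.1 → p.2 ≠ 0 → AnalyticAt ℂ φ p := by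
    intro p hp h0
    exact AnalyticAt.prod analyticAt_fst (AnalyticAt.prod analyticAt_snd
      ((AnalyticAt.comp (g := t) hp analyticAt_fst).div analyticAt_snd h0))
  have hV : IsOpen {x | x ∈ U ∧ u x ≠ 0} := by
    rw [isOpen_iff_mem_nhds]
    rintro x ⟨hx, h0⟩
    filter_upwards [h.isOpen.mem_nhds hx, (h.cont_u hx).eventually_ne h0] with x' h1 h2
    exact ⟨h1, h2⟩
  have eψ : (fun x => (π x, u x)) = ψ ∘ Emap π u v := rfl
  have eφ : ∀ x, x ∈ U → u x ≠ 0 → Emap π u v x = φ (π x, u x) := by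
    intro x hx h0
    have := h.eqn x hx
    simp only [Emap, φ, ← this, mul_div_cancel_left₀ _ h0]
  refine ⟨hV, ?_, ?_, ?_⟩
  · rintro x ⟨hx, h0⟩ x' ⟨hx', h0'⟩ e
    apply h.inj hx hx'
    have e' : (π x, u x) = (π x', u x') := e
    rw [eφ x hx h0, eφ x' hx' h0', e']
  · rintro x ⟨hx, h0⟩
    rw [eψ, ← Filter.map_map, h.nhds x hx]
    have h9 : φ (ψ (Emap π u v x)) = Emap π u v x := (eφ x hx h0).symm
    refine le_antisymm ?_ ?_
    · exact (Filter.map_mono inf_le_left).trans (aψ _).continuousAt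
    · intro s hs
      rw [Filter.mem_map] at hs
      obtain ⟨W, hW, hWs⟩ := mem_nhdsWithin_iff_exists_mem_nhds_inter.1 hs
      have h1 : ContinuousAt φ (ψ (Emap π u v x)) := (aφ _ (h.an x hx) h0).continuousAt
      have h2 : φ ⁻¹' W ∈ 𝓝 (ψ (Emap π u v x)) := h1 (by rw [h9]; exact hW)
      have h3 : ∀ᶠ q in 𝓝 (ψ (Emap π u v x)), q.2 ≠ 0 :=
        continuousAt_snd.eventually_ne h0
      filter_upwards [h2, h3] with q hq hq0
      have h5 : φ q ∈ ψ ⁻¹' s := by
        refine hWs ⟨hq, ?_⟩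
        change q.2 * (t q.1 / q.2) = t q.1
        rw [mul_div_cancel₀ _ hq0]
      exact h5
  · rintro x ⟨hx, h0⟩ g
    rw [isModel_hol h hx]
    constructor
    · intro hg
      refine hg.trans (aφ _ (h.an x hx) h0) ?_
      filter_upwards [hV.mem_nhds ⟨hx, h0⟩] with x' hx'
      exact eφ x' hx'.1 hx'.2
    · intro hg
      exact hg.trans (aψ _) (by rw [← eψ])

theorem coord_v (h : IsModel π hol U u v t) : IsCoord π hol {x | x ∈ U ∧ v x ≠ 0} v :=
  coord_u (swap_model h)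

end ofModel

/-! ### Two lemmas on spaces of pairs -/

section lift

variable {X F G : Type} [TopologicalSpace X] [TopologicalSpace F] [TopologicalSpace G]
  {P : X × OnePoint ℂ → Prop}

theorem cont_ρ : Continuous fun z : Subtype P => z.1.1 := continuous_fst.comp continuous_subtype_val

theorem cont_a : Continuous fun z : Subtype P => z.1.2 := continuous_snd.comp continuous_subtype_val

/-- the coordinate map of a space of pairs is a local homeomorphism onto `T'` -/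
theorem nhds_lift {E : X → F} {T : Set F} {U : Set X} {y : Subtype P}
    (hU : U ∈ 𝓝 y.1.1) (hE : map E (𝓝 y.1.1) = 𝓝[T] (E y.1.1))
    {E' : Subtype P → G} {T' : Set G} (hc : ContinuousAt E' y) (hT' : ∀ᶠ z in 𝓝 y, E' z ∈ T')
    {κ : G → F} {σ : G → OnePoint ℂ} (hκ : ContinuousAt κ (E' y)) (hκ0 : κ (E' y) = E y.1.1)
    (hσ : ContinuousAt σ (E' y)) (hσ0 : σ (E' y) = y.1.2)
    (hT : ∀ᶠ p in 𝓝[T'] (E' y), κ p ∈ T)
    (hP : ∀ᶠ p in 𝓝[T'] (E' y), ∀ x' ∈ U, E x' = κ p →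
      ∃ h : P (x', σ p), E' ⟨(x', σ p), h⟩ = p) :
    map E' (𝓝 y) = 𝓝[T'] (E' y) := by
  refine le_antisymm ?_ ?_
  · rw [nhdsWithin, le_inf_iff]
    exact ⟨hc, le_principal_iff.2 hT'⟩
  · intro s hs
    have h9 : 𝓝 y = comap Subtype.val (𝓝 y.1) :=
      Topology.IsInducing.subtypeVal.nhds_eq_comap y
    rw [Filter.mem_map, h9, Filter.mem_comap] at hs
    obtain ⟨W, hW, hWs⟩ := hs
    rw [nhds_prod_eq, Filter.mem_prod_iff] at hW
    obtain ⟨V, hV, A, hA, hVA⟩ := hW
    have h1 : E '' (V ∩ U) ∈ 𝓝[T] (E y.1.1) := by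
      rw [← hE]; exact Filter.image_mem_map (Filter.inter_mem hV hU)
    obtain ⟨O, hO, hOs⟩ := mem_nhdsWithin_iff_exists_mem_nhds_inter.1 h1
    have h2 : ∀ᶠ p in 𝓝[T'] (E' y), κ p ∈ O :=
      nhdsWithin_le_nhds (hκ (by rw [hκ0]; exact hO))
    have h3 : ∀ᶠ p in 𝓝[T'] (E' y), σ p ∈ A :=
      nhdsWithin_le_nhds (hσ (by rw [hσ0]; exact hA))
    filter_upwards [h2, h3, hT, hP] with p p2 p3 p4 p5
    obtain ⟨x', ⟨hx'V, hx'U⟩, hx'⟩ := hOs ⟨p2, p4⟩
    obtain ⟨h6, h7⟩ := p5 x' hx'U hx'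
    rw [← h7]
    exact hWs (hVA ⟨hx'V, p3⟩)

/-- a continuous section gives openness of the projection -/
theorem open_of_section {y : Subtype P} {α : X → OnePoint ℂ} (hα : ContinuousAt α y.1.1)
    (h0 : α y.1.1 = y.1.2) (hP : ∀ᶠ x' in 𝓝 y.1.1, P (x', α x')) :
    𝓝 y.1.1 ≤ map (fun z : Subtype P => z.1.1) (𝓝 y) := by
  intro s hs
  have h9 : 𝓝 y = comap Subtype.val (𝓝 y.1) :=
    Topology.IsInducing.subtypeVal.nhds_eq_comap y
  rw [Filter.mem_map, h9, Filter.mem_comap] at hs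
  obtain ⟨W, hW, hWs⟩ := hs
  have h1 : ContinuousAt (fun x => (x, α x)) y.1.1 := continuousAt_id.prodMk hα
  have h10 : (y.1.1, α y.1.1) = y.1 := by rw [h0]
  have h2 : ∀ᶠ x' in 𝓝 y.1.1, (x', α x') ∈ W := h1 (by
    change W ∈ 𝓝 (y.1.1, α y.1.1)
    rw [h10]; exact hW)
  filter_upwards [h2, hP] with x' h3 h4
  have h5 : (⟨(x', α x'), h4⟩ : Subtype P) ∈ (fun z : Subtype P => z.1.1) ⁻¹' s := hWs h3
  exact h5

end lift

end Vale.Agent.P273.H469
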