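import Vale.Agent.P273.H469.SepA
import Vale.Agent.P273.H469.SepDef
import Vale.Agent.P273.H422.GenAdm
import Vale.Agent.P273.H732.Conv3

/-!
# P273, crew ASY0, (F) separation

`sep`: along the dilation of a generic point, marks in different components are eventually not near.
-/

set_option linter.unusedSectionVars false

noncomputable section

open Filter Topology
open scoped ComplexConjugate

namespace Vale.Agent.P273.H469.Sep

open H95 H732 H562
open H973 hiding emb gk

/-! ### the roots -/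

theorem norm_th_sub (d : Fin 3 → ℂ) (r : Fin 6) : ‖H828.th d r - ctr (rc r)‖ = ‖d (rc r)‖ := by
  fin_cases r
  · change ‖(3 / 2 - d 0) - ctr 0‖ = ‖d 0‖
    rw [← norm_neg (d 0)]; congr 1; simp [ctr]
  · change ‖(3 / 2 + d 0) - ctr 0‖ = ‖d 0‖
    congr 1; simp [ctr]
  · change ‖(7 / 2 - d 1) - ctr 1‖ = ‖d 1‖
    rw [← norm_neg (d 1)]; congr 1; simp [ctr]; ring
  · change ‖(7 / 2 + d 1) - ctr 1‖ = ‖d 1‖
    congr 1; simp [ctr]; ring
  · change ‖(11 / 2 - d 2) - ctr 2‖ = ‖d 2‖
    rw [← norm_neg (d 2)]; congr 1; simp [ctr]; ring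
  · change ‖(11 / 2 + d 2) - ctr 2‖ = ‖d 2‖
    congr 1; simp [ctr]; ring

theorem rootLim (y α : Fin 3 → ℝ) : RootLim (fun N : ℝ => rootsL (fun k => N * y k) α) y := by
  intro r t ht
  rw [tendsto_zero_iff_norm_tendsto_zero]
  have h1 : ∀ N : ℝ, ‖(Real.exp (N * t) : ℂ) *
      (rootsL (fun k => N * y k) α r - ctr (rc r))‖ =
      1 / 16 * Real.exp (-(N * (y (rc r) / 2 - t))) := by
    intro N
    rw [norm_mul, rootsL, norm_th_sub, norm_mul, Complex.norm_real,
      Real.norm_of_nonneg (Real.exp_pos _).le, Complex.norm_exp]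
    have h2 : ((-((N * y (rc r) : ℝ) : ℂ) + (α (rc r) : ℂ) * Complex.I) / 2).re =
        -(N * y (rc r)) / 2 := by
      simp
    rw [h2]
    have h3 : ‖(1 / 16 : ℂ)‖ = 1 / 16 := by simp
    rw [h3, mul_left_comm, ← Real.exp_add]
    congr 2
    ring
  simp only [h1]
  have h4 : 0 < y (rc r) / 2 - t := by linarith
  have h5 := (Real.tendsto_exp_neg_atTop_nhds_zero.comp
    (tendsto_id.atTop_mul_const h4)).const_mul (1 / 16 : ℝ)
  rw [mul_zero] at h5
  exact h5

/-! ### the factors of the sheets -/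

section factors

variable {ε : ℝ → Fin 3 → ℂ} {x : ℝ → ℂ} {x₀ : ℂ}

theorem csq_one : csq 1 = 1 := by
  unfold csq
  exact Complex.one_cpow _

theorem factor_lim (hε : ∀ l, Tendsto (fun N => ε N l) atTop (𝓝 0))
    (hx : Tendsto x atTop (𝓝 x₀)) {l : Fin 3} (hl : x₀ ≠ ctr l) :
    Tendsto (fun N => (x N - ctr l) * csq (1 - ε N l / (x N - ctr l) ^ 2)) atTop
      (𝓝 (x₀ - ctr l)) := by
  have h1 : Tendsto (fun N => x N - ctr l) atTop (𝓝 (x₀ - ctr l)) := hx.sub_const _
  have h2 : Tendsto (fun N => 1 - ε N l / (x N - ctr l) ^ 2) atTop (𝓝 (1 - 0)) := by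
    refine tendsto_const_nhds.sub ?_
    have h3 := (hε l).div (h1.pow 2) (pow_ne_zero 2 (sub_ne_zero.2 hl))
    rwa [zero_div] at h3
  have h4 : ContinuousAt csq (1 - 0) := H975.continuousAt_csq (by simp)
  have h5 := h1.mul (h4.tendsto.comp h2)
  rw [sub_zero, csq_one, mul_one] at h5
  exact h5

theorem gk_lim (hε : ∀ l, Tendsto (fun N => ε N l) atTop (𝓝 0)) (hx : Tendsto x atTop (𝓝 x₀))
    {k : Fin 3} (hl : ∀ l, l ≠ k → x₀ ≠ ctr l) :
    Tendsto (fun N => gk (ε N) k (x N)) atTop (𝓝 (Gq k x₀)) := by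
  unfold gk Gq
  refine tendsto_finsetProd _ fun l _ => ?_
  by_cases h : l = k
  · simp only [if_pos h]; exact tendsto_const_nhds
  · simp only [if_neg h]; exact factor_lim hε hx (hl l h)

theorem gc_lim (hε : ∀ l, Tendsto (fun N => ε N l) atTop (𝓝 0)) (hx : Tendsto x atTop (𝓝 x₀))
    (hl : ∀ l, x₀ ≠ ctr l) : Tendsto (fun N => gc (ε N) (x N)) atTop (𝓝 (GG x₀)) := by
  unfold gc GG
  exact tendsto_finsetProd _ fun l _ => factor_lim hε hx (hl l)

end factors

/-! ### the marks along the dilation -/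

section marks

variable {R : H95.Region} {m : ∀ k, Fin (R.n k + 1)} {S : L → Bool} {B : Set (W R m).Fr}
  {p : Co R m}

theorem eps_dpt (N : ℝ) (k : Fin 3) : R.eps (emb R m ((W R m).dpt B N p)) k =
    (1 / 16) ^ 2 * Complex.exp ((p.2.2.2.1 k : ℂ) * Complex.I) *
      (Real.exp (-(N * p.2.2.1 k)) : ℂ) := by
  have h := eps_scl_psi R m ((W R m).dpt B N p) k
  have h1 : ((W R m).dpt B N p).2.2.1 k = N * p.2.2.1 k := rfl
  have h2 : ((W R m).dpt B N p).2.2.2.1 k = p.2.2.2.1 k := rfl
  rw [h1, h2] at h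
  rw [emb, h, mul_assoc, Complex.ofReal_exp, ← Complex.exp_add]
  congr 2
  push_cast
  ring

theorem eps_lim (hy : ∀ k, 0 < p.2.2.1 k) (k : Fin 3) :
    Tendsto (fun N : ℝ => R.eps (emb R m ((W R m).dpt B N p)) k) atTop (𝓝 0) := by
  simp only [eps_dpt]
  have h := (tendsto_exp_neg (hy k)).const_mul
    ((1 / 16) ^ 2 * Complex.exp ((p.2.2.2.1 k : ℂ) * Complex.I))
  rwa [mul_zero] at h

variable (R m B p) in
/-- the coefficient of `X` -/
def cX {j : L} {k : Fin 3} (h : R.pl j = Sum.inl k) : ℂ := 1 / 16 * Complex.exp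
  (-((∑ g ∈ wreg.bef R.n k (rkF R h), H422.off R m B p g : ℝ) : ℂ) +
    (wreg.ang m p k (rkF R h) : ℂ) * Complex.I)

variable (R m B p) in
/-- the coefficient of `Y` -/
def cY {j : L} {k : Fin 3} (h : R.pl j = Sum.inl k) : ℂ := 1 / 16 * Complex.exp
  (((∑ g ∈ wreg.bef R.n k (rkF R h), H422.off R m B p g : ℝ) : ℂ) +
    ((p.2.2.2.1 k - wreg.ang m p k (rkF R h) : ℝ) : ℂ) * Complex.I)

theorem cX_ne {j : L} {k : Fin 3} (h : R.pl j = Sum.inl k) : cX R m B p h ≠ 0 :=
  mul_ne_zero (by norm_num) (Complex.exp_ne_zero _)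

theorem cY_ne {j : L} {k : Fin 3} (h : R.pl j = Sum.inl k) : cY R m B p h ≠ 0 :=
  mul_ne_zero (by norm_num) (Complex.exp_ne_zero _)

theorem XX_dpt {j : L} {k : Fin 3} (h : R.pl j = Sum.inl k) (N : ℝ) :
    R.XX (emb R m ((W R m).dpt B N p)) k (R.rk j) =
      cX R m B p h * (Real.exp (-(N * depl R m B p h)) : ℂ) := by
  have h1 := XX_scl_psi R m ((W R m).dpt B N p) k (rkF R h)
  rw [wreg.LX_eq, H422.dep_dpt R m B N p h] at h1
  have h2 : wreg.ang m ((W R m).dpt B N p) k (rkF R h) = wreg.ang m p k (rkF R h) := rfl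
  rw [h2] at h1
  have h3 : ((rkF R h : Fin (R.n k)) : ℕ) = R.rk j := rfl
  rw [h3] at h1
  rw [emb, h1, cX, mul_assoc, Complex.ofReal_exp, ← Complex.exp_add]
  congr 2
  push_cast
  ring

theorem YY_dpt {j : L} {k : Fin 3} (h : R.pl j = Sum.inl k) (N : ℝ) :
    R.YY (emb R m ((W R m).dpt B N p)) k (R.rk j) =
      cY R m B p h * (Real.exp (-(N * (p.2.2.1 k - depl R m B p h))) : ℂ) := by
  have h1 := YY_scl_psi R m ((W R m).dpt B N p) k (rkF R h)
  rw [wreg.LY_eq, H422.dep_dpt R m B N p h] at h1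
  have h2 : wreg.ang m ((W R m).dpt B N p) k (rkF R h) = wreg.ang m p k (rkF R h) := rfl
  have h4 : ((W R m).dpt B N p).2.2.1 k = N * p.2.2.1 k := rfl
  have h5 : ((W R m).dpt B N p).2.2.2.1 k = p.2.2.2.1 k := rfl
  rw [h2, h4, h5] at h1
  have h3 : ((rkF R h : Fin (R.n k)) : ℕ) = R.rk j := rfl
  rw [h3] at h1
  rw [emb, h1, cY, mul_assoc, Complex.ofReal_exp, ← Complex.exp_add]
  congr 2
  push_cast
  ring

theorem szl_nonneg (hG : Gen R m S B p) (g : Σ k, Fin (R.n k + 1)) : 0 ≤ szl R m B p g := by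
  classical
  unfold szl
  split_ifs with h1 h2
  · exact (hG.1.1 _ h2).le
  · exact le_rfl
  · rw [H422.sum_and_comm]
    have := hG.1.2 ((W R m).nk g)
    linarith

theorem szl_pos_of_last (hG : Gen R m S B p) (k : Fin 3) :
    0 < szl R m B p ((W R m).last k) := by
  classical
  unfold szl
  have h : (W R m).nk ((W R m).last k) = k := (W R m).nk_last k
  rw [dif_neg (by rw [h]; exact fun h' => h' rfl), H422.sum_and_comm, h]
  have := hG.1.2 k
  linarith

theorem depl_nonneg (hG : Gen R m S B p) {j : L} {k : Fin 3} (h : R.pl j = Sum.inl k) :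
    0 ≤ depl R m B p h := Finset.sum_nonneg fun g _ => szl_nonneg hG g

open Classical in
theorem sum_szl (k : Fin 3) :
    ∑ g ∈ (W R m).neck k, szl R m B p g = p.2.2.1 k := by
  have h1 : ∀ N : ℝ, ∑ g ∈ (W R m).neck k, (W R m).ug ((W R m).dpt B N p) g = N * p.2.2.1 k := by
    intro N
    have h2 := (W R m).sum_ug ((W R m).dpt B N p) k
    rw [Reg.neck, Finset.sum_filter, h2]
    rfl
  have h3 := h1 1
  have h4 := h1 0
  simp only [H422.ug_dpt, Finset.sum_add_distrib, zero_mul, zero_add, one_mul] at h3 h4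
  rw [h4] at h3
  linarith [h3, Finset.sum_const_zero (s := (W R m).neck k) (M := ℝ)]

theorem depl_le (hG : Gen R m S B p) {j : L} {k : Fin 3} (h : R.pl j = Sum.inl k) :
    depl R m B p h ≤ p.2.2.1 k := by
  rw [← sum_szl (B := B) k]
  exact Finset.sum_le_sum_of_subset_of_nonneg (wreg.bef_subset m k _)
    fun g _ _ => szl_nonneg hG g

theorem S_neck (hS : FarOk R S) {j : L} {k : Fin 3} (h : R.pl j = Sum.inl k) : S j = false := by
  by_contra hc
  have h1 := hS j (by simpa using hc)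
  rw [h] at h1
  simp at h1

theorem PT_neck (hS : FarOk R S) {j : L} {k : Fin 3} (h : R.pl j = Sum.inl k) (q : Co R m) :
    PT R m S q j = (ctr k + (R.XX (emb R m q) k (R.rk j) + R.YY (emb R m q) k (R.rk j)) / 2,
      gk (R.eps (emb R m q)) k
        (ctr k + (R.XX (emb R m q) k (R.rk j) + R.YY (emb R m q) k (R.rk j)) / 2) *
        (R.XX (emb R m q) k (R.rk j) - R.YY (emb R m q) k (R.rk j)) / 2) := by
  have h1 := S_neck hS h
  unfold PT Xp Yp
  rw [if_neg (by rw [h1]; simp), if_neg (by rw [h1]; simp)]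
  refine Prod.ext ?_ ?_
  · exact pos_neck R _ h
  · change R.sht S (emb R m q) j = _
    rw [sht_neck R S _ h, pos_neck R _ h]

/-- the sign of the sheet -/
def sg (b : Bool) : ℝ := if b then -1 else 1

theorem ctr_add_ne {k : Fin 3} {a : ℂ} (ha : a ≠ 0) (h : ‖a‖ ≤ 1 / 16) (l : Fin 3) :
    ctr k + a / 2 ≠ ctr l := by
  intro e
  by_cases hl : l = k
  · subst hl
    apply ha
    linear_combination 2 * e
  · have h1 := H975.two_le_norm_ctr hl
    have h2 : ctr k - ctr l = -(a / 2) := by linear_combination e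
    rw [h2, norm_neg, norm_div] at h1
    have h3 : ‖(2 : ℂ)‖ = 2 := by simp
    rw [h3] at h1
    linarith

theorem norm_exp_neg_mul (s : ℝ) (c : ℂ) (N : ℝ) :
    ‖c * (Real.exp (-(N * s)) : ℂ)‖ = ‖c‖ * Real.exp (-(N * s)) := by
  rw [norm_mul, Complex.norm_real, Real.norm_of_nonneg (Real.exp_pos _).le]

theorem small_XY (hS : FarOk R S) (hG : Gen R m S B p) (hy : ∀ k, 0 < p.2.2.1 k) {j : L}
    {k : Fin 3} (h : R.pl j = Sum.inl k) : ∀ᶠ N : ℝ in atTop,
      ‖R.XX (emb R m ((W R m).dpt B N p)) k (R.rk j)‖ ≤ 1 / 16 ∧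
      ‖R.YY (emb R m ((W R m).dpt B N p)) k (R.rk j)‖ ≤ 1 / 16 := by
  filter_upwards [H422.gen_adm R m S hS B p hG hy 1] with N hN
  have hI := hN.1
  have hl : ∀ k, 0 ≤ (W R m).ul ((W R m).dpt B N p) k := fun k =>
    (W R m).ul_nonneg hI k (by linarith [hN.2.1 k])
  have h1 := XX_scl_psi R m ((W R m).dpt B N p) k (rkF R h)
  have h2 := YY_scl_psi R m ((W R m).dpt B N p) k (rkF R h)
  have h3 : ((rkF R h : Fin (R.n k)) : ℕ) = R.rk j := rfl
  rw [h3] at h1 h2
  have h4 : ‖(1 / 16 : ℂ)‖ = 1 / 16 := by simp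
  constructor
  · rw [emb, h1, norm_mul, h4]
    have := (W R m).norm_exp_lS_le_one hI hl (wreg.bef R.n k (rkF R h))
    change 1 / 16 * ‖Complex.exp ((W R m).lS (wreg.bef R.n k (rkF R h)) _)‖ ≤ _
    linarith
  · rw [emb, h2, norm_mul, h4]
    have := (W R m).norm_exp_lS_le_one hI hl (wreg.aft R.n k (rkF R h))
    change 1 / 16 * ‖Complex.exp ((W R m).lS (wreg.aft R.n k (rkF R h)) _)‖ ≤ _
    linarith

/-- neck mark at depth zero -/
theorem ac_zero (hS : FarOk R S) (hG : Gen R m S B p) (hy : ∀ k, 0 < p.2.2.1 k) {j : L}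
    {k : Fin 3} (h : R.pl j = Sum.inl k) (h0 : depl R m B p h = 0) :
    AC (fun N : ℝ => PT R m S ((W R m).dpt B N p) j) (sg false) := by
  have hc : ‖cX R m B p h‖ ≤ 1 / 16 := by
    obtain ⟨N, hN⟩ := (small_XY hS hG hy h).exists
    have h1 := hN.1
    rw [XX_dpt h, h0, mul_zero, neg_zero, Real.exp_zero, Complex.ofReal_one, mul_one] at h1
    exact h1
  have hX : Tendsto (fun N : ℝ => R.XX (emb R m ((W R m).dpt B N p)) k (R.rk j)) atTop
      (𝓝 (cX R m B p h)) := by
    simp only [XX_dpt h, h0, mul_zero, neg_zero, Real.exp_zero, Complex.ofReal_one, mul_one]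
    exact tendsto_const_nhds
  have hY : Tendsto (fun N : ℝ => R.YY (emb R m ((W R m).dpt B N p)) k (R.rk j)) atTop (𝓝 0) := by
    simp only [YY_dpt h, h0, sub_zero]
    have h1 := (tendsto_exp_neg (hy k)).const_mul (cY R m B p h)
    rwa [mul_zero] at h1
  have hx : Tendsto (fun N : ℝ => ctr k + (R.XX (emb R m ((W R m).dpt B N p)) k (R.rk j) +
      R.YY (emb R m ((W R m).dpt B N p)) k (R.rk j)) / 2) atTop
      (𝓝 (ctr k + cX R m B p h / 2)) := by
    have h1 := ((hX.add hY).div_const 2).const_add (ctr k)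
    rwa [add_zero] at h1
  have hne := ctr_add_ne (k := k) (cX_ne (m := m) (B := B) (p := p) h) hc
  refine Or.inr ⟨ctr k + cX R m B p h / 2, hne, ?_, ?_⟩
  · simp only [PT_neck hS h]; exact hx
  · simp only [PT_neck hS h]
    have h2 := ((gk_lim (k := k) (eps_lim (m := m) (B := B) hy) hx
      fun l _ => hne l).mul (hX.sub hY)).div_const 2
    refine (h2.congr fun N => rfl).trans (le_of_eq ?_)
    · rw [GG_eq k]
      congr 1
      simp only [sg, Bool.false_eq_true, if_false, Complex.ofReal_one, sub_zero]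
      ring

/-- neck mark at depth `y` -/
theorem ac_full (hS : FarOk R S) (hG : Gen R m S B p) (hy : ∀ k, 0 < p.2.2.1 k) {j : L}
    {k : Fin 3} (h : R.pl j = Sum.inl k) (h0 : depl R m B p h = p.2.2.1 k) :
    AC (fun N : ℝ => PT R m S ((W R m).dpt B N p) j) (sg true) := by
  have hc : ‖cY R m B p h‖ ≤ 1 / 16 := by
    obtain ⟨N, hN⟩ := (small_XY hS hG hy h).exists
    have h1 := hN.2
    rw [YY_dpt h, h0, sub_self, mul_zero, neg_zero, Real.exp_zero, Complex.ofReal_one,
      mul_one] at h1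
    exact h1
  have hY : Tendsto (fun N : ℝ => R.YY (emb R m ((W R m).dpt B N p)) k (R.rk j)) atTop
      (𝓝 (cY R m B p h)) := by
    simp only [YY_dpt h, h0, sub_self, mul_zero, neg_zero, Real.exp_zero, Complex.ofReal_one,
      mul_one]
    exact tendsto_const_nhds
  have hX : Tendsto (fun N : ℝ => R.XX (emb R m ((W R m).dpt B N p)) k (R.rk j)) atTop (𝓝 0) := by
    simp only [XX_dpt h, h0]
    have h1 := (tendsto_exp_neg (hy k)).const_mul (cX R m B p h)
    rwa [mul_zero] at h1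
  have hx : Tendsto (fun N : ℝ => ctr k + (R.XX (emb R m ((W R m).dpt B N p)) k (R.rk j) +
      R.YY (emb R m ((W R m).dpt B N p)) k (R.rk j)) / 2) atTop
      (𝓝 (ctr k + cY R m B p h / 2)) := by
    have h1 := ((hX.add hY).div_const 2).const_add (ctr k)
    rwa [zero_add] at h1
  have hne := ctr_add_ne (k := k) (cY_ne (m := m) (B := B) (p := p) h) hc
  refine Or.inr ⟨ctr k + cY R m B p h / 2, hne, ?_, ?_⟩
  · simp only [PT_neck hS h]; exact hx
  · simp only [PT_neck hS h]
    have h2 := ((gk_lim (k := k) (eps_lim (m := m) (B := B) hy) hx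
      fun l _ => hne l).mul (hX.sub hY)).div_const 2
    refine (h2.congr fun N => rfl).trans (le_of_eq ?_)
    · rw [GG_eq k]
      congr 1
      simp only [sg, if_true, Complex.ofReal_neg, Complex.ofReal_one, zero_sub]
      ring

theorem scale_mul (t s : ℝ) (c : ℂ) (N : ℝ) : (Real.exp (N * t) : ℂ) *
    (c * (Real.exp (-(N * s)) : ℂ)) = c * (Real.exp (-(N * (s - t))) : ℂ) := by
  rw [mul_left_comm, ← Complex.ofReal_mul, ← Real.exp_add]
  congr 3
  ring

theorem exp_self (t : ℝ) (N : ℝ) : (Real.exp (-(N * (t - t))) : ℂ) = 1 := by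
  rw [sub_self, mul_zero, neg_zero, Real.exp_zero, Complex.ofReal_one]

/-- neck mark at a depth inside the neck -/
theorem an_in (hS : FarOk R S) (hG : Gen R m S B p) (hy : ∀ k, 0 < p.2.2.1 k) {j : L}
    {k : Fin 3} (h : R.pl j = Sum.inl k) (h0 : depl R m B p h ≠ 0)
    (h1 : depl R m B p h ≠ p.2.2.1 k) : ∃ σ t : ℝ,
      ((σ = 1 ∧ t = depl R m B p h) ∨ (σ = -1 ∧ t = p.2.2.1 k - depl R m B p h)) ∧
      AN (fun N : ℝ => PT R m S ((W R m).dpt B N p) j) p.2.2.1 k σ t := by
  have hs0 : 0 < depl R m B p h := lt_of_le_of_ne (depl_nonneg hG h) (Ne.symm h0)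
  have hs1 : depl R m B p h < p.2.2.1 k := lt_of_le_of_ne (depl_le hG h) h1
  have hmid := hG.2.2.2.2.2 j k h
  have hX0 : Tendsto (fun N : ℝ => R.XX (emb R m ((W R m).dpt B N p)) k (R.rk j)) atTop
      (𝓝 0) := by
    simp only [XX_dpt h]
    have h1 := (tendsto_exp_neg hs0).const_mul (cX R m B p h)
    rwa [mul_zero] at h1
  have hY0 : Tendsto (fun N : ℝ => R.YY (emb R m ((W R m).dpt B N p)) k (R.rk j)) atTop
      (𝓝 0) := by
    simp only [YY_dpt h]
    have h1 := (tendsto_exp_neg (sub_pos.2 hs1)).const_mul (cY R m B p h)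
    rwa [mul_zero] at h1
  have hx : Tendsto (fun N : ℝ => ctr k + (R.XX (emb R m ((W R m).dpt B N p)) k (R.rk j) +
      R.YY (emb R m ((W R m).dpt B N p)) k (R.rk j)) / 2) atTop (𝓝 (ctr k)) := by
    have h1 := ((hX0.add hY0).div_const 2).const_add (ctr k)
    simpa using h1
  have hg := gk_lim (eps_lim (m := m) (B := B) hy) hx (k := k) fun l hl => ctr_ne hl
  rcases lt_or_gt_of_ne hmid with h2 | h2
  · refine ⟨1, depl R m B p h, Or.inl ⟨rfl, rfl⟩, hs0, h2, cX R m B p h / 2,
      div_ne_zero (cX_ne h) two_ne_zero, ?_, ?_⟩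
    all_goals
      have hX : Tendsto (fun N : ℝ => (Real.exp (N * depl R m B p h) : ℂ) *
          R.XX (emb R m ((W R m).dpt B N p)) k (R.rk j)) atTop (𝓝 (cX R m B p h)) := by
        simp only [XX_dpt h, scale_mul, exp_self, mul_one]
        exact tendsto_const_nhds
      have hY : Tendsto (fun N : ℝ => (Real.exp (N * depl R m B p h) : ℂ) *
          R.YY (emb R m ((W R m).dpt B N p)) k (R.rk j)) atTop (𝓝 0) := by
        simp only [YY_dpt h, scale_mul]
        have h3 : 0 < p.2.2.1 k - depl R m B p h - depl R m B p h := by linarith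
        have h4 := (tendsto_exp_neg h3).const_mul (cY R m B p h)
        rwa [mul_zero] at h4
    · simp only [PT_neck hS h]
      have h3 := (hX.add hY).div_const 2
      rw [add_zero] at h3
      refine h3.congr fun N => ?_
      ring
    · simp only [PT_neck hS h]
      have h3 := (hg.mul (hX.sub hY)).div_const 2
      rw [sub_zero] at h3
      refine (h3.congr fun N => ?_).trans (le_of_eq ?_)
      · ring
      · congr 1
        push_cast
        ring
  · refine ⟨-1, p.2.2.1 k - depl R m B p h, Or.inr ⟨rfl, rfl⟩, by linarith, by linarith,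
      cY R m B p h / 2, div_ne_zero (cY_ne h) two_ne_zero, ?_, ?_⟩
    all_goals
      have hY : Tendsto (fun N : ℝ => (Real.exp (N * (p.2.2.1 k - depl R m B p h)) : ℂ) *
          R.YY (emb R m ((W R m).dpt B N p)) k (R.rk j)) atTop (𝓝 (cY R m B p h)) := by
        simp only [YY_dpt h, scale_mul, exp_self, mul_one]
        exact tendsto_const_nhds
      have hX : Tendsto (fun N : ℝ => (Real.exp (N * (p.2.2.1 k - depl R m B p h)) : ℂ) *
          R.XX (emb R m ((W R m).dpt B N p)) k (R.rk j)) atTop (𝓝 0) := by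
        simp only [XX_dpt h, scale_mul]
        have h3 : 0 < depl R m B p h - (p.2.2.1 k - depl R m B p h) := by linarith
        have h4 := (tendsto_exp_neg h3).const_mul (cX R m B p h)
        rwa [mul_zero] at h4
    · simp only [PT_neck hS h]
      have h3 := (hX.add hY).div_const 2
      rw [zero_add] at h3
      refine h3.congr fun N => ?_
      ring
    · simp only [PT_neck hS h]
      have h3 := (hg.mul (hX.sub hY)).div_const 2
      rw [zero_sub] at h3
      refine (h3.congr fun N => ?_).trans (le_of_eq ?_)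
      · ring
      · congr 1
        push_cast
        ring

/-- core marks -/
theorem ac_core (hG : Gen R m S B p) (hy : ∀ k, 0 < p.2.2.1 k) {j : L}
    {b : Bool} (h : R.pl j = Sum.inr b) :
    AC (fun N : ℝ => PT R m S ((W R m).dpt B N p) j) (sg b) := by
  have hpos : ∀ N : ℝ, R.pos (emb R m ((W R m).dpt B N p)) j =
      p.2.2.2.2 ⟨j, by simp [h]⟩ := fun N => by
    rw [pos_core R _ h]
    rfl
  set z := p.2.2.2.2 ⟨j, by simp [h]⟩ with hz
  have hzone := hG.2.2.2.2.1 ⟨j, by simp [h]⟩ (Set.mem_univ _)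
  have hsg : ((if b then (-1 : ℂ) else 1)) = (sg b : ℂ) := by
    cases b <;> simp [sg]
  by_cases hSj : S j = true
  · have hzone' : ‖z‖ ≤ 11⁻¹ := by
      simp only [hSj, if_true] at hzone
      simpa using hzone
    by_cases hz0 : z = 0
    · left
      refine Eventually.of_forall fun N => ?_
      change Yp S (posE R m _) (shE R m S _) j = 0
      unfold Yp
      rw [if_pos hSj]
      change R.sht S _ j * (R.pos (emb R m ((W R m).dpt B N p)) j)⁻¹ ^ 3 = 0
      rw [hpos, hz0]
      simp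
    · have hne : ∀ l, z⁻¹ ≠ ctr l := fun l e => by
        have h1 := H975.norm_ctr_le l
        rw [← e, norm_inv] at h1
        have h2 : 0 < ‖z‖ := norm_pos_iff.2 hz0
        have h3 : (11 : ℝ) ≤ ‖z‖⁻¹ := by
          rw [le_inv_comm₀ (by norm_num) h2]
          exact hzone'
        linarith
      refine Or.inr ⟨z⁻¹, hne, ?_, ?_⟩
      · refine tendsto_const_nhds.congr fun N => ?_
        change _ = Xp S (posE R m _) j
        unfold Xp
        rw [if_pos hSj]
        change _ = (R.pos (emb R m ((W R m).dpt B N p)) j)⁻¹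
        rw [hpos]
      · have h1 := (gc_lim (ε := fun N => R.eps (emb R m ((W R m).dpt B N p))) (eps_lim hy)
          (tendsto_const_nhds (x := z⁻¹)) hne).const_mul (sg b : ℂ)
        refine h1.congr fun N => ?_
        change _ = Yp S (posE R m _) (shE R m S _) j
        unfold Yp
        rw [if_pos hSj]
        change _ = R.sht S (emb R m ((W R m).dpt B N p)) j *
          (R.pos (emb R m ((W R m).dpt B N p)) j)⁻¹ ^ 3
        rw [sht_core R S _ h, if_pos hSj, hpos, hsg, gcw_eq _ hz0]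
        have : z ^ 3 * z⁻¹ ^ 3 = 1 := by
          rw [← mul_pow, mul_inv_cancel₀ hz0, one_pow]
        linear_combination (-(sg b : ℂ) * gc (R.eps (emb R m ((W R m).dpt B N p))) z⁻¹) * this
  · have hSj' : S j = false := by simpa using hSj
    have hne : ∀ l, z ≠ ctr l := fun l e => by
      simp only [hSj', Bool.false_eq_true, if_false] at hzone
      have h1 := hzone.2 l
      change 1 / 64 ≤ ‖z - ctr l‖ at h1
      rw [e, sub_self, norm_zero] at h1
      linarith
    refine Or.inr ⟨z, hne, ?_, ?_⟩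
    · refine tendsto_const_nhds.congr fun N => ?_
      change _ = Xp S (posE R m _) j
      unfold Xp
      rw [if_neg hSj]
      exact (hpos N).symm
    · have h1 := (gc_lim (ε := fun N => R.eps (emb R m ((W R m).dpt B N p))) (eps_lim hy)
        (tendsto_const_nhds (x := z)) hne).const_mul (sg b : ℂ)
      refine h1.congr fun N => ?_
      change _ = Yp S (posE R m _) (shE R m S _) j
      unfold Yp
      rw [if_neg hSj]
      change _ = R.sht S (emb R m ((W R m).dpt B N p)) j
      rw [sht_core R S _ h, if_neg hSj, hpos, hsg]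

/-! ### classification -/

theorem cls_core (hS : FarOk R S) (hG : Gen R m S B p) (hy : ∀ k, 0 < p.2.2.1 k) {j : L}
    {b : Bool} (h : cmp R m B p j = .core b) :
    AC (fun N : ℝ => PT R m S ((W R m).dpt B N p) j) (sg b) := by
  rcases hj : R.pl j with k | b'
  · rw [cmp_neck hj] at h
    split_ifs at h with h1 h2
    · cases h; exact ac_zero hS hG hy hj h1
    · cases h; exact ac_full hS hG hy hj h2
  · rw [cmp_core hj] at h
    cases h
    exact ac_core hG hy hj

theorem cls_nk (hS : FarOk R S) (hG : Gen R m S B p) (hy : ∀ k, 0 < p.2.2.1 k) {j : L}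
    {k : Fin 3} {s : ℝ} (h : cmp R m B p j = .nk k s) : ∃ σ t : ℝ,
      ((σ = 1 ∧ t = s) ∨ (σ = -1 ∧ t = p.2.2.1 k - s)) ∧
      AN (fun N : ℝ => PT R m S ((W R m).dpt B N p) j) p.2.2.1 k σ t := by
  rcases hj : R.pl j with k' | b'
  · rw [cmp_neck hj] at h
    split_ifs at h with h1 h2
    cases h
    exact an_in hS hG hy hj h1 h2
  · rw [cmp_core hj] at h
    cases h

theorem sg_ne (b : Bool) : sg b ≠ 0 := by cases b <;> simp [sg]

theorem sg_not {b b' : Bool} (h : b ≠ b') : sg b' = -sg b := by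
  cases b <;> cases b' <;> simp_all [sg]

/-- **(F1) separation**: marks in different components are eventually not near. -/
theorem sep (hS : FarOk R S) (hG : Gen R m S B p) (hy : ∀ k, 0 < p.2.2.1 k) {i j : L}
    (h : cmp R m B p i ≠ cmp R m B p j) : ∀ᶠ N : ℝ in atTop, ∀ c ≤ (1 / 16 : ℝ),
      ¬ H578.Nr c (posE R m ((W R m).dpt B N p)).1 (PT R m S ((W R m).dpt B N p) i)
        (PT R m S ((W R m).dpt B N p) j) := by
  have hb : RootLim (fun N : ℝ => (posE R m ((W R m).dpt B N p)).1) p.2.2.1 :=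
    rootLim p.2.2.1 p.2.2.2.1
  suffices H : ∀ᶠ N : ℝ in atTop, ¬ H578.Nr (1 / 16) (posE R m ((W R m).dpt B N p)).1
      (PT R m S ((W R m).dpt B N p) i) (PT R m S ((W R m).dpt B N p) j) by
    filter_upwards [H] with N hN c hc hn
    exact hN (hn.mono hc)
  rcases hi : cmp R m B p i with b | ⟨k, s⟩ <;> rcases hj : cmp R m B p j with b' | ⟨k', s'⟩
  · have hbb : b ≠ b' := fun e => h (by rw [hi, hj, e])
    have h1 := cls_core hS hG hy hi
    have h2 := cls_core hS hG hy hj
    rw [sg_not hbb] at h2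
    exact core_core hb hy (sg_ne b) h1 h2
  · obtain ⟨σ, t, -, h2⟩ := cls_nk hS hG hy hj
    exact core_neck hb hy (cls_core hS hG hy hi) h2
  · obtain ⟨σ, t, -, h2⟩ := cls_nk hS hG hy hi
    exact neck_core hb hy h2 (cls_core hS hG hy hj)
  · obtain ⟨σ, t, h1, h2⟩ := cls_nk hS hG hy hi
    obtain ⟨σ', t', h1', h2'⟩ := cls_nk hS hG hy hj
    by_cases hk : k = k'
    · subst hk
      have hs : s ≠ s' := fun e => h (by rw [hi, hj, e])
      by_cases ht : t = t'
      · subst ht
        rcases h1 with ⟨e1, e2⟩ | ⟨e1, e2⟩ <;> rcases h1' with ⟨e1', e2'⟩ | ⟨e1', e2'⟩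
        · exact absurd (e2.symm.trans e2') hs
        · subst e1 e1'
          exact neck_opp hb hy one_ne_zero h2 h2'
        · subst e1 e1'
          refine neck_opp hb hy (by norm_num) h2 ?_
          rw [neg_neg]; exact h2'
        · exact absurd (by linarith) hs
      · exact neck_size hb hy h2 h2' ht
    · exact neck_ne hb hy h2 h2' hk

end marks

end Vale.Agent.P273.H469.Sep

end
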