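import Vale.Agent.P273.H578.Psi
import Vale.Agent.P273.H562.AsyDefs

/-!
# P273, crew ASY0, (F) separation: the tests

Marks with different limits along a dilation are not near (helper578's `Nr`).  `AC`: a mark that
tends to a point of a core (sign `σ` of the sheet) or to a point at infinity, `AN`: a mark in the
neck `k` at the relative depth `t` on the side `σ`.
-/

noncomputable section

open Filter Topology
open scoped ComplexConjugate

namespace Vale.Agent.P273.H469.Sep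

open H95 H578 H681

/-- `∏ (x - e_l)` -/
def GG (x : ℂ) : ℂ := ∏ l : Fin 3, (x - ctr l)

/-- the product without the factor `k` -/
def Gq (k : Fin 3) (x : ℂ) : ℂ := ∏ l : Fin 3, if l = k then 1 else (x - ctr l)

theorem GG_eq (k : Fin 3) (x : ℂ) : GG x = Gq k x * (x - ctr k) := by
  rw [GG, Gq, ← Finset.prod_erase_mul Finset.univ _ (Finset.mem_univ k),
    ← Finset.prod_erase_mul Finset.univ (fun l => if l = k then (1 : ℂ) else (x - ctr l))
      (Finset.mem_univ k)]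
  simp only [if_true, mul_one]
  congr 1
  refine Finset.prod_congr rfl fun l hl => ?_
  rw [if_neg (Finset.mem_erase.1 hl).1]

theorem ctr_ne {k l : Fin 3} (h : l ≠ k) : ctr k ≠ ctr l := by
  intro e
  have := H975.two_le_norm_ctr h
  rw [e, sub_self, norm_zero] at this
  linarith

theorem Gq_ne {k : Fin 3} {x : ℂ} (h : ∀ l, l ≠ k → x ≠ ctr l) : Gq k x ≠ 0 := by
  refine Finset.prod_ne_zero_iff.2 fun l _ => ?_
  split_ifs with hl
  · exact one_ne_zero
  · exact sub_ne_zero.2 (h l hl)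

theorem GG_ne {x : ℂ} (h : ∀ l, x ≠ ctr l) : GG x ≠ 0 :=
  Finset.prod_ne_zero_iff.2 fun l _ => sub_ne_zero.2 (h l)

theorem Gq_ctr_ne (k : Fin 3) : Gq k (ctr k) ≠ 0 := Gq_ne fun _ h => ctr_ne h

theorem norm_GG_sub {x x' : ℂ} (h : ∀ l, x ≠ ctr l)
    (h' : ∀ l, 16 * ‖x - x'‖ ≤ ‖x - ctr l‖) : ‖GG x' / GG x - 1‖ < 1 := by
  have h1 : GG x' / GG x = ∏ l : Fin 3, (1 + (x' - x) / (x - ctr l)) := by
    unfold GG
    rw [← Finset.prod_div_distrib]
    refine Finset.prod_congr rfl fun l _ => ?_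
    have := sub_ne_zero.2 (h l)
    field_simp
    ring
  rw [h1]
  refine (Finset.norm_prod_one_add_sub_one_le _ _).trans_lt ?_
  have h2 : ∑ l : Fin 3, ‖(x' - x) / (x - ctr l)‖ ≤ 3 / 16 := by
    calc ∑ l : Fin 3, ‖(x' - x) / (x - ctr l)‖ ≤ ∑ _l : Fin 3, (1 / 16 : ℝ) := by
          refine Finset.sum_le_sum fun l _ => ?_
          have h3 : 0 < ‖x - ctr l‖ := norm_pos_iff.2 (sub_ne_zero.2 (h l))
          rw [norm_div, div_le_iff₀ h3, norm_sub_rev]
          linarith [h' l]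
      _ = 3 / 16 := by simp; norm_num
  have h3 : Real.exp (∑ l : Fin 3, ‖(x' - x) / (x - ctr l)‖) ≤ Real.exp (3 / 16) :=
    Real.exp_le_exp.2 h2
  have h4 : Real.exp (3 / 16 : ℝ) < 2 := by
    have h5 := Real.add_one_le_exp (-(3 / 16 : ℝ))
    have h6 : Real.exp (3 / 16 : ℝ) * Real.exp (-(3 / 16)) = 1 := by
      rw [← Real.exp_add]; norm_num
    have h7 := Real.exp_pos (3 / 16 : ℝ)
    nlinarith
  linarith

/-- opposite sheets -/
theorem re_neg_of_close {z : ℂ} (h : ‖z - 1‖ < 1) : 0 < z.re := by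
  have h1 := (Complex.abs_re_le_norm (z - 1)).trans_lt h
  rw [Complex.sub_re, Complex.one_re, abs_lt] at h1
  linarith [h1.1]

theorem conj_re {u v : ℂ} (hu : u ≠ 0) (h : ‖v / u - 1‖ < 1) : 0 < (v * conj u).re := by
  rw [mul_conj_re hu]
  have h1 := re_neg_of_close h
  have h2 : 0 < ‖u‖ ^ 2 := by have := norm_pos_iff.2 hu; positivity
  exact mul_pos h1 h2

/-- the centre of a root -/
def rc (r : Fin 6) : Fin 3 := ⟨(r : ℕ) / 2, by omega⟩

/-- the first root of a pair -/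
def rt (k : Fin 3) : Fin 6 := ⟨2 * (k : ℕ), by omega⟩

theorem rc_rt (k : Fin 3) : rc (rt k) = k := by
  ext
  simp [rc, rt]

/-- the roots of every pair approach each other exponentially -/
def RootLim (b : ℝ → C6) (y : Fin 3 → ℝ) : Prop :=
  ∀ (r : Fin 6) (t : ℝ), 2 * t < y (rc r) →
    Tendsto (fun N : ℝ => (Real.exp (N * t) : ℂ) * (b N r - ctr (rc r))) atTop (𝓝 0)

theorem RootLim.lim {b : ℝ → C6} {y : Fin 3 → ℝ} (h : RootLim b y) (hy : ∀ k, 0 < y k)
    (r : Fin 6) : Tendsto (fun N => b N r) atTop (𝓝 (ctr (rc r))) := by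
  have h1 := h r 0 (by simpa using hy (rc r))
  have h2 : Tendsto (fun N : ℝ => (b N r - ctr (rc r)) + ctr (rc r)) atTop
      (𝓝 (0 + ctr (rc r))) := by
    refine Tendsto.add_const _ (h1.congr fun N => ?_)
    simp
  simpa using h2

/-- a mark of a core (or at infinity) -/
def AC (P : ℝ → ℂ × ℂ) (σ : ℝ) : Prop :=
  (∀ᶠ N in atTop, (P N).2 = 0) ∨ ∃ x : ℂ, (∀ l, x ≠ ctr l) ∧
    Tendsto (fun N => (P N).1) atTop (𝓝 x) ∧ Tendsto (fun N => (P N).2) atTop (𝓝 (σ * GG x))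

/-- a mark inside the neck `k` -/
def AN (P : ℝ → ℂ × ℂ) (y : Fin 3 → ℝ) (k : Fin 3) (σ t : ℝ) : Prop :=
  0 < t ∧ 2 * t < y k ∧ ∃ a : ℂ, a ≠ 0 ∧
    Tendsto (fun N : ℝ => (Real.exp (N * t) : ℂ) * ((P N).1 - ctr k)) atTop (𝓝 a) ∧
    Tendsto (fun N : ℝ => (Real.exp (N * t) : ℂ) * (P N).2) atTop (𝓝 (σ * Gq k (ctr k) * a))

section

variable {b : ℝ → C6} {y : Fin 3 → ℝ} {P Q : ℝ → ℂ × ℂ}

theorem tendsto_exp_neg {t : ℝ} (ht : 0 < t) :
    Tendsto (fun N : ℝ => (Real.exp (-(N * t)) : ℂ)) atTop (𝓝 0) := by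
  rw [← Complex.ofReal_zero]
  refine (Complex.continuous_ofReal.tendsto _).comp ?_
  exact Real.tendsto_exp_neg_atTop_nhds_zero.comp (tendsto_id.atTop_mul_const ht)

theorem exp_mul_exp_neg (s : ℝ) : (Real.exp s : ℂ) * (Real.exp (-s) : ℂ) = 1 := by
  rw [← Complex.ofReal_mul, ← Real.exp_add, add_neg_cancel, Real.exp_zero, Complex.ofReal_one]

theorem AN.lim {k : Fin 3} {σ t : ℝ} (h : AN P y k σ t) :
    Tendsto (fun N => (P N).1) atTop (𝓝 (ctr k)) := by
  obtain ⟨ht, -, a, -, h1, -⟩ := h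
  have h2 := (tendsto_exp_neg ht).mul h1
  rw [zero_mul] at h2
  have h3 : Tendsto (fun N : ℝ => ((P N).1 - ctr k) + ctr k) atTop (𝓝 (0 + ctr k)) := by
    refine Tendsto.add_const _ (h2.congr fun N => ?_)
    rw [← mul_assoc, mul_comm (Real.exp (-(N * t)) : ℂ), exp_mul_exp_neg, one_mul]
  simpa using h3

theorem off_of_lim (hb : RootLim b y) (hy : ∀ k, 0 < y k) {x : ℂ} (hx : ∀ l, x ≠ ctr l)
    (h : Tendsto (fun N => (P N).1) atTop (𝓝 x)) : ∀ᶠ N in atTop, Off (b N) (P N).1 := by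
  refine eventually_all.2 fun r => ?_
  have h1 : Tendsto (fun N => (P N).1 - b N r) atTop (𝓝 (x - ctr (rc r))) :=
    h.sub (hb.lim hy r)
  filter_upwards [h1.eventually_ne (sub_ne_zero.2 (hx _))] with N hN
  exact sub_ne_zero.1 hN

theorem AN.sub_root (hb : RootLim b y) {k : Fin 3} {σ t : ℝ} (h : AN P y k σ t) {a : ℂ}
    (ha : Tendsto (fun N : ℝ => (Real.exp (N * t) : ℂ) * ((P N).1 - ctr k)) atTop (𝓝 a))
    {r : Fin 6} (hr : rc r = k) :
    Tendsto (fun N : ℝ => (Real.exp (N * t) : ℂ) * ((P N).1 - b N r)) atTop (𝓝 a) := by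
  have h1 := hb r t (by rw [hr]; exact h.2.1)
  rw [hr] at h1
  have h2 := ha.sub h1
  rw [sub_zero] at h2
  refine h2.congr fun N => ?_
  ring

theorem AN.off (hb : RootLim b y) (hy : ∀ k, 0 < y k) {k : Fin 3} {σ t : ℝ}
    (h : AN P y k σ t) : ∀ᶠ N in atTop, Off (b N) (P N).1 := by
  refine eventually_all.2 fun r => ?_
  by_cases hr : rc r = k
  · obtain ⟨a, ha, h1, -⟩ := h.2.2
    filter_upwards [(h.sub_root hb h1 hr).eventually_ne ha] with N hN e
    rw [e, sub_self, mul_zero] at hN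
    exact hN rfl
  · have h1 : Tendsto (fun N => (P N).1 - b N r) atTop (𝓝 (ctr k - ctr (rc r))) :=
      h.lim.sub (hb.lim hy r)
    filter_upwards [h1.eventually_ne (sub_ne_zero.2 (ctr_ne hr))] with N hN
    exact sub_ne_zero.1 hN

theorem not_nr_zero (h : (∀ᶠ N in atTop, (P N).2 = 0) ∨ ∀ᶠ N in atTop, (Q N).2 = 0) (c : ℝ) :
    ∀ᶠ N in atTop, ¬ Nr c (b N) (P N) (Q N) := by
  rcases h with h | h
  · filter_upwards [h] with N hN hn
    have := hn.1
    rw [hN] at this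
    simp [H578.Same] at this
  · filter_upwards [h] with N hN hn
    have := hn.1
    rw [hN] at this
    simp [H578.Same] at this

theorem not_nr_lim (hoff : ∀ᶠ N in atTop, Off (b N) (P N).1) {g : ℝ → ℝ} (hg : ∀ N, 0 < g N)
    (r : Fin 6) {A D : ℝ} (h1 : Tendsto (fun N => g N * ‖(P N).1 - (Q N).1‖) atTop (𝓝 A))
    (h2 : Tendsto (fun N => g N * ‖(P N).1 - b N r‖) atTop (𝓝 D)) (h : D < 16 * A) :
    ∀ᶠ N in atTop, ¬ Nr (1 / 16) (b N) (P N) (Q N) := by
  have h3 := h2.eventually_lt (h1.const_mul 16) h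
  filter_upwards [hoff, h3] with N hN h4 h5
  have h6 := h5.2
  have h7 := Hs_le hN r
  have h8 := hg N
  nlinarith

theorem not_nr_same {g : ℝ → ℝ} (hg : ∀ N, 0 < g N) {u v : ℂ}
    (h1 : Tendsto (fun N => (g N : ℂ) * (P N).2) atTop (𝓝 u))
    (h2 : Tendsto (fun N => (g N : ℂ) * (Q N).2) atTop (𝓝 v)) (h : (v * conj u).re < 0) (c : ℝ) :
    ∀ᶠ N in atTop, ¬ Nr c (b N) (P N) (Q N) := by
  have h3 : Tendsto (fun N => (((g N : ℂ) * (Q N).2) * conj ((g N : ℂ) * (P N).2)).re) atTop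
      (𝓝 (v * conj u).re) :=
    (Complex.continuous_re.tendsto _).comp
      (h2.mul ((Complex.continuous_conj.tendsto _).comp h1))
  filter_upwards [h3.eventually (gt_mem_nhds h)] with N hN hn
  have h4 : 0 < ((Q N).2 * conj (P N).2).re := hn.1
  have h5 : ((g N : ℂ) * (Q N).2) * conj ((g N : ℂ) * (P N).2) =
      ((g N ^ 2 : ℝ) : ℂ) * ((Q N).2 * conj (P N).2) := by
    rw [map_mul, Complex.conj_ofReal]
    push_cast
    ring
  rw [h5, Complex.re_ofReal_mul] at hN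
  have h6 := hg N
  have h7 : 0 < g N ^ 2 * ((Q N).2 * conj (P N).2).re := by positivity
  linarith

/-- the two cores -/
theorem core_core (hb : RootLim b y) (hy : ∀ k, 0 < y k) {σ : ℝ} (hσ : σ ≠ 0) (hP : AC P σ)
    (hQ : AC Q (-σ)) : ∀ᶠ N in atTop, ¬ Nr (1 / 16) (b N) (P N) (Q N) := by
  rcases hP with hP | ⟨x, hx, h1, h2⟩
  · exact not_nr_zero (Or.inl hP) _
  rcases hQ with hQ | ⟨x', hx', h1', h2'⟩
  · exact not_nr_zero (Or.inr hQ) _
  by_cases h : ∀ l, 16 * ‖x - x'‖ ≤ ‖x - ctr l‖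
  · refine not_nr_same (g := fun _ => 1) (fun _ => one_pos) (u := σ * GG x)
      (v := (-σ : ℝ) * GG x') (by simpa using h2) (by simpa using h2') ?_ _
    have h3 := conj_re (GG_ne hx) (norm_GG_sub hx h)
    have h4 : ((-σ : ℝ) : ℂ) * GG x' * conj ((σ : ℂ) * GG x) =
        ((-(σ ^ 2) : ℝ) : ℂ) * (GG x' * conj (GG x)) := by
      rw [map_mul, Complex.conj_ofReal]
      push_cast
      ring
    rw [h4, Complex.re_ofReal_mul]
    have h5 : 0 < σ ^ 2 := by positivity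
    nlinarith
  · push Not at h
    obtain ⟨l, hl⟩ := h
    refine not_nr_lim (off_of_lim hb hy hx h1) (g := fun _ => 1) (fun _ => one_pos) (rt l)
      (A := ‖x - x'‖) (D := ‖x - ctr l‖) ?_ ?_ hl
    · simpa using (h1.sub h1').norm
    · have h3 := hb.lim hy (rt l)
      rw [rc_rt] at h3
      simpa using (h1.sub h3).norm

/-- different limits, the first one in a neck -/
theorem neck_of_lim (hb : RootLim b y) (hy : ∀ k, 0 < y k) {k : Fin 3} {σ t : ℝ}
    (hP : AN P y k σ t) {x : ℂ} (hx : ctr k ≠ x) (hQ : Tendsto (fun N => (Q N).1) atTop (𝓝 x)) :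
    ∀ᶠ N in atTop, ¬ Nr (1 / 16) (b N) (P N) (Q N) := by
  refine not_nr_lim (hP.off hb hy) (g := fun _ => 1) (fun _ => one_pos) (rt k)
    (A := ‖ctr k - x‖) (D := 0) ?_ ?_ ?_
  · simpa using (hP.lim.sub hQ).norm
  · have h3 := hb.lim hy (rt k)
    rw [rc_rt] at h3
    simpa using (hP.lim.sub h3).norm
  · have := norm_pos_iff.2 (sub_ne_zero.2 hx)
    linarith

theorem neck_core (hb : RootLim b y) (hy : ∀ k, 0 < y k) {k : Fin 3} {σ σ' t : ℝ}
    (hP : AN P y k σ t) (hQ : AC Q σ') :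
    ∀ᶠ N in atTop, ¬ Nr (1 / 16) (b N) (P N) (Q N) := by
  rcases hQ with hQ | ⟨x, hx, h1, -⟩
  · exact not_nr_zero (Or.inr hQ) _
  · exact neck_of_lim hb hy hP (hx k).symm h1

theorem neck_ne (hb : RootLim b y) (hy : ∀ k, 0 < y k) {k k' : Fin 3} {σ σ' t t' : ℝ}
    (hP : AN P y k σ t) (hQ : AN Q y k' σ' t') (h : k ≠ k') :
    ∀ᶠ N in atTop, ¬ Nr (1 / 16) (b N) (P N) (Q N) :=
  neck_of_lim hb hy hP (ctr_ne h.symm) hQ.lim

theorem core_neck (hb : RootLim b y) (hy : ∀ k, 0 < y k) {k : Fin 3} {σ σ' t : ℝ}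
    (hP : AC P σ') (hQ : AN Q y k σ t) :
    ∀ᶠ N in atTop, ¬ Nr (1 / 16) (b N) (P N) (Q N) := by
  rcases hP with hP | ⟨x, hx, h1, -⟩
  · exact not_nr_zero (Or.inl hP) _
  refine not_nr_lim (off_of_lim hb hy hx h1) (g := fun _ => 1) (fun _ => one_pos) (rt k)
    (A := ‖x - ctr k‖) (D := ‖x - ctr k‖) ?_ ?_ ?_
  · simpa using (h1.sub hQ.lim).norm
  · have h3 := hb.lim hy (rt k)
    rw [rc_rt] at h3
    simpa using (h1.sub h3).norm
  · have := norm_pos_iff.2 (sub_ne_zero.2 (hx k))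
    linarith

/-- a mark is negligible at a smaller scale -/
theorem AN.small {k : Fin 3} {σ t s : ℝ} (h : AN P y k σ t) (hs : s < t) :
    Tendsto (fun N : ℝ => (Real.exp (N * s) : ℂ) * ((P N).1 - ctr k)) atTop (𝓝 0) := by
  obtain ⟨-, -, a, -, h1, -⟩ := h
  have h2 := (tendsto_exp_neg (sub_pos.2 hs)).mul h1
  rw [zero_mul] at h2
  refine h2.congr fun N => ?_
  rw [← mul_assoc, ← Complex.ofReal_mul, ← Real.exp_add]
  congr 3
  ring

theorem norm_scale {s : ℝ} {z : ℝ → ℂ} {a : ℂ}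
    (h : Tendsto (fun N : ℝ => (Real.exp (N * s) : ℂ) * z N) atTop (𝓝 a)) :
    Tendsto (fun N : ℝ => Real.exp (N * s) * ‖z N‖) atTop (𝓝 ‖a‖) := by
  refine h.norm.congr fun N => ?_
  rw [norm_mul, Complex.norm_real, Real.norm_of_nonneg (Real.exp_pos _).le]

theorem neck_size (hb : RootLim b y) (hy : ∀ k, 0 < y k) {k : Fin 3} {σ σ' t t' : ℝ}
    (hP : AN P y k σ t) (hQ : AN Q y k σ' t') (h : t ≠ t') :
    ∀ᶠ N in atTop, ¬ Nr (1 / 16) (b N) (P N) (Q N) := by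
  obtain ⟨a, ha, h1, -⟩ := hP.2.2
  obtain ⟨a', ha', h1', -⟩ := hQ.2.2
  rcases lt_or_gt_of_ne h with h | h
  · refine not_nr_lim (hP.off hb hy) (g := fun N => Real.exp (N * t)) (fun _ => Real.exp_pos _)
      (rt k) (A := ‖a‖) (D := ‖a‖) ?_ (norm_scale (hP.sub_root hb h1 (rc_rt k))) ?_
    · refine norm_scale (z := fun N => (P N).1 - (Q N).1) ?_
      have h3 := h1.sub (hQ.small h)
      rw [sub_zero] at h3
      refine h3.congr fun N => ?_
      ring
    · have := norm_pos_iff.2 ha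
      linarith
  · refine not_nr_lim (hP.off hb hy) (g := fun N => Real.exp (N * t')) (fun _ => Real.exp_pos _)
      (rt k) (A := ‖-a'‖) (D := ‖(0 : ℂ)‖) ?_ ?_ ?_
    · refine norm_scale (z := fun N => (P N).1 - (Q N).1) ?_
      have h3 := (hP.small h).sub h1'
      rw [zero_sub] at h3
      refine h3.congr fun N => ?_
      ring
    · refine norm_scale (z := fun N => (P N).1 - b N (rt k)) ?_
      have h3 := hb (rt k) t' (by rw [rc_rt]; exact hQ.2.1)
      rw [rc_rt] at h3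
      have h4 := (hP.small h).sub h3
      rw [sub_zero] at h4
      refine h4.congr fun N => ?_
      ring
    · rw [norm_neg, norm_zero]
      have := norm_pos_iff.2 ha'
      linarith

theorem neck_opp (hb : RootLim b y) (hy : ∀ k, 0 < y k) {k : Fin 3} {σ t : ℝ} (hσ : σ ≠ 0)
    (hP : AN P y k σ t) (hQ : AN Q y k (-σ) t) :
    ∀ᶠ N in atTop, ¬ Nr (1 / 16) (b N) (P N) (Q N) := by
  obtain ⟨a, ha, h1, h2⟩ := hP.2.2
  obtain ⟨a', ha', h1', h2'⟩ := hQ.2.2
  by_cases h : 16 * ‖a - a'‖ ≤ ‖a‖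
  · refine not_nr_same (g := fun N => Real.exp (N * t)) (fun _ => Real.exp_pos _) h2 h2' ?_ _
    have h3 : ‖a' / a - 1‖ < 1 := by
      have h5 : a' / a - 1 = (a' - a) / a := by rw [sub_div, div_self ha]
      have h6 := norm_pos_iff.2 ha
      rw [h5, norm_div, div_lt_one h6, norm_sub_rev]
      have := norm_nonneg (a - a')
      linarith
    have h4 := conj_re ha h3
    have h5 : ((-σ : ℝ) : ℂ) * Gq k (ctr k) * a' * conj ((σ : ℂ) * Gq k (ctr k) * a) =
        ((-(σ ^ 2 * ‖Gq k (ctr k)‖ ^ 2) : ℝ) : ℂ) * (a' * conj a) := by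
      have h6 : Gq k (ctr k) * conj (Gq k (ctr k)) = ((‖Gq k (ctr k)‖ ^ 2 : ℝ) : ℂ) := by
        rw [Complex.mul_conj, Complex.normSq_eq_norm_sq]
      rw [map_mul, map_mul, Complex.conj_ofReal]
      push_cast at h6 ⊢
      rw [← h6]
      ring
    rw [h5, Complex.re_ofReal_mul]
    have h6 := norm_pos_iff.2 (Gq_ctr_ne k)
    have h7 : 0 < σ ^ 2 * ‖Gq k (ctr k)‖ ^ 2 := by positivity
    nlinarith
  · push Not at h
    refine not_nr_lim (hP.off hb hy) (g := fun N => Real.exp (N * t)) (fun _ => Real.exp_pos _)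
      (rt k) (A := ‖a - a'‖) (D := ‖a‖) ?_ (norm_scale (hP.sub_root hb h1 (rc_rt k))) h
    refine norm_scale (z := fun N => (P N).1 - (Q N).1) ((h1.sub h1').congr fun N => ?_)
    ring

end

end Vale.Agent.P273.H469.Sep
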